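import Vale.Agent.Lib.P047h.Defs

/-!
Biased Fourier analysis of a Boolean function on the cube.
-/

namespace Vale.Agent.Lib.P047h

open Finset

variable {n : ℕ}

lemma bitSign_true : bitSign true = 1 := rfl
lemma bitSign_false : bitSign false = -1 := rfl

lemma bitSign_sq (b : Bool) : bitSign b * bitSign b = 1 := by
  cases b <;> simp [bitSign]

/-- sum over the cube of a product of coordinate functions -/
lemma sum_prod_coord (h : Fin n → Bool → ℝ) :
    ∑ x : Fin n → Bool, ∏ i, h i (x i) = ∏ i, (h i true + h i false) := by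
  have := (Finset.prod_univ_sum (fun _ : Fin n => (Finset.univ : Finset Bool)) h).symm
  simp only [Fintype.piFinset_univ] at this
  rw [this]
  apply Finset.prod_congr rfl
  intro i _
  simp [add_comm]

/-- one coordinate weight of the `ε`-biased measure -/
noncomputable def wt (ε : ℝ) (b : Bool) : ℝ := (1 + ε * bitSign b) / 2

/-- the `ε`-biased measure -/
noncomputable def W (ε : ℝ) (x : Fin n → Bool) : ℝ := ∏ i, wt ε (x i)

lemma wt_nonneg {ε : ℝ} (h1 : -1 ≤ ε) (h2 : ε ≤ 1) (b : Bool) : 0 ≤ wt ε b := by
  cases b <;> simp only [wt, bitSign] <;> norm_num <;> linarith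

lemma W_nonneg {ε : ℝ} (h1 : -1 ≤ ε) (h2 : ε ≤ 1) (x : Fin n → Bool) : 0 ≤ W ε x :=
  Finset.prod_nonneg fun i _ => wt_nonneg h1 h2 _

lemma sum_W (ε : ℝ) : ∑ x : Fin n → Bool, W ε x = 1 := by
  unfold W
  rw [sum_prod_coord (fun _ b => wt ε b)]
  apply Finset.prod_eq_one
  intro i _
  simp [wt, bitSign]
  ring

/-- the coordinate function `x_i - ε` -/
noncomputable def psi (ε : ℝ) (i : Fin n) (x : Fin n → Bool) : ℝ := bitSign (x i) - ε

/-- the product of coordinate functions over `S` -/
noncomputable def Psi (ε : ℝ) (S : Finset (Fin n)) (x : Fin n → Bool) : ℝ :=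
  ∏ i ∈ S, psi ε i x

lemma Psi_empty (ε : ℝ) (x : Fin n → Bool) : Psi ε ∅ x = 1 := by simp [Psi]

lemma Psi_eq_prod (ε : ℝ) (S : Finset (Fin n)) (x : Fin n → Bool) :
    Psi ε S x = ∏ i, (if i ∈ S then bitSign (x i) - ε else 1) := by
  unfold Psi psi
  rw [Finset.prod_ite_mem]
  simp

/-- orthogonality of the `Psi` under the biased measure -/
lemma orth (ε : ℝ) (S T : Finset (Fin n)) :
    ∑ x : Fin n → Bool, W ε x * (Psi ε S x * Psi ε T x) =
      if S = T then (1 - ε ^ 2) ^ S.card else 0 := by
  have h1 : ∀ x : Fin n → Bool, W ε x * (Psi ε S x * Psi ε T x) =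
      ∏ i, (wt ε (x i) * ((if i ∈ S then bitSign (x i) - ε else 1) *
        (if i ∈ T then bitSign (x i) - ε else 1))) := by
    intro x
    rw [Psi_eq_prod, Psi_eq_prod, W, ← Finset.prod_mul_distrib, ← Finset.prod_mul_distrib]
  simp_rw [h1]
  rw [sum_prod_coord (fun i b => wt ε b * ((if i ∈ S then bitSign b - ε else 1) *
        (if i ∈ T then bitSign b - ε else 1)))]
  have h2 : ∀ i : Fin n, (wt ε true * ((if i ∈ S then bitSign true - ε else 1) *
        (if i ∈ T then bitSign true - ε else 1)) +
      wt ε false * ((if i ∈ S then bitSign false - ε else 1) *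
        (if i ∈ T then bitSign false - ε else 1))) =
      if i ∈ S then (if i ∈ T then 1 - ε ^ 2 else 0) else (if i ∈ T then 0 else 1) := by
    intro i
    by_cases hS : i ∈ S <;> by_cases hT : i ∈ T <;> simp [hS, hT, wt, bitSign] <;> ring
  simp_rw [h2]
  by_cases hST : S = T
  · subst hST
    simp only [if_true]
    have : ∀ i : Fin n, (if i ∈ S then (if i ∈ S then 1 - ε ^ 2 else 0) else
        (if i ∈ S then 0 else 1)) = if i ∈ S then 1 - ε ^ 2 else 1 := by
      intro i
      by_cases h : i ∈ S <;> simp [h]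
    simp_rw [this]
    rw [Finset.prod_ite_mem]
    simp
  · rw [if_neg hST]
    have : ∃ i, (i ∈ S ∧ i ∉ T) ∨ (i ∉ S ∧ i ∈ T) := by
      by_contra hcon
      push Not at hcon
      apply hST
      ext i
      constructor
      · intro h
        exact (hcon i).1 h
      · intro h
        by_contra h'
        exact (hcon i).2 h' h
    obtain ⟨i, hi⟩ := this
    apply Finset.prod_eq_zero (Finset.mem_univ i)
    rcases hi with ⟨h1, h2⟩ | ⟨h1, h2⟩ <;> simp [h1, h2]

lemma mean_Psi (ε : ℝ) (S : Finset (Fin n)) :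
    ∑ x : Fin n → Bool, W ε x * Psi ε S x = if S = ∅ then 1 else 0 := by
  have := orth ε S ∅
  simp only [Psi_empty, mul_one] at this
  rw [this]
  by_cases h : S = ∅
  · simp [h]
  · simp [h]

/-- Derivative in direction `i`. -/
noncomputable def delta (i : Fin n) (g : (Fin n → Bool) → ℝ) (x : Fin n → Bool) : ℝ :=
  (g (Function.update x i true) - g (Function.update x i false)) / 2

lemma Psi_update_of_notMem (ε : ℝ) {S : Finset (Fin n)} {i : Fin n} (h : i ∉ S)
    (x : Fin n → Bool) (b : Bool) : Psi ε S (Function.update x i b) = Psi ε S x := by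
  unfold Psi psi
  apply Finset.prod_congr rfl
  intro j hj
  have : j ≠ i := fun e => h (e ▸ hj)
  simp [Function.update_of_ne this]

lemma delta_Psi (ε : ℝ) (S : Finset (Fin n)) (i : Fin n) (x : Fin n → Bool) :
    delta i (Psi ε S) x = if i ∈ S then Psi ε (S.erase i) x else 0 := by
  unfold delta
  by_cases h : i ∈ S
  · rw [if_pos h]
    have hs : ∀ y : Fin n → Bool, Psi ε S y = psi ε i y * Psi ε (S.erase i) y := by
      intro y
      unfold Psi
      rw [Finset.mul_prod_erase S (fun j => psi ε j y) h]
    rw [hs, hs, Psi_update_of_notMem ε (Finset.notMem_erase i S),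
      Psi_update_of_notMem ε (Finset.notMem_erase i S)]
    simp [psi, bitSign]
    ring
  · rw [if_neg h, Psi_update_of_notMem ε h, Psi_update_of_notMem ε h]
    simp

/-- Expansion: sum over `S ⊇ A` of `b S * Psi (S \ A)`. -/
noncomputable def expan (ε : ℝ) (A : Finset (Fin n)) (b : Finset (Fin n) → ℝ)
    (x : Fin n → Bool) : ℝ :=
  ∑ S ∈ Finset.univ.filter (fun S => A ⊆ S), b S * Psi ε (S \ A) x

lemma delta_expan (ε : ℝ) (A : Finset (Fin n)) (b : Finset (Fin n) → ℝ) {i : Fin n}
    (hi : i ∉ A) (x : Fin n → Bool) :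
    delta i (expan ε A b) x = expan ε (insert i A) b x := by
  unfold delta expan
  rw [← Finset.sum_sub_distrib, Finset.sum_div]
  have h1 : ∀ S ∈ Finset.univ.filter (fun S => A ⊆ S),
      (b S * Psi ε (S \ A) (Function.update x i true) -
        b S * Psi ε (S \ A) (Function.update x i false)) / 2 =
      if i ∈ S then b S * Psi ε (S \ insert i A) x else 0 := by
    intro S hS
    have h2 := delta_Psi ε (S \ A) i x
    unfold delta at h2
    have h3 : i ∈ S \ A ↔ i ∈ S := by simp [hi]
    have h4 : (S \ A).erase i = S \ insert i A := by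
      ext j
      simp only [Finset.mem_erase, Finset.mem_sdiff, Finset.mem_insert]
      tauto
    rw [← mul_sub, mul_div_assoc, h2]
    by_cases h : i ∈ S
    · rw [if_pos (h3.2 h), if_pos h, h4]
    · rw [if_neg (fun e => h (h3.1 e)), if_neg h, mul_zero]
  rw [Finset.sum_congr rfl h1]
  rw [Finset.sum_ite, Finset.sum_const_zero, add_zero, Finset.filter_filter]
  apply Finset.sum_congr
  · ext S
    simp only [Finset.mem_filter, Finset.mem_univ, true_and, Finset.insert_subset_iff]
    tauto
  · intro _ _
    rfl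

lemma mean_expan (ε : ℝ) (A : Finset (Fin n)) (b : Finset (Fin n) → ℝ) :
    ∑ x : Fin n → Bool, W ε x * expan ε A b x = b A := by
  unfold expan
  simp_rw [Finset.mul_sum]
  rw [Finset.sum_comm]
  have h1 : ∀ S ∈ Finset.univ.filter (fun S => A ⊆ S),
      ∑ x : Fin n → Bool, W ε x * (b S * Psi ε (S \ A) x) =
      b S * (if S \ A = ∅ then 1 else 0) := by
    intro S _
    rw [← mean_Psi ε (S \ A), Finset.mul_sum]
    apply Finset.sum_congr rfl
    intro x _
    ring
  rw [Finset.sum_congr rfl h1]
  rw [Finset.sum_eq_single A]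
  · simp
  · intro S hS hne
    have hS' : A ⊆ S := (Finset.mem_filter.mp hS).2
    have : S \ A ≠ ∅ := by
      intro e
      apply hne
      exact Finset.Subset.antisymm (Finset.sdiff_eq_empty_iff_subset.mp e) hS'
    simp [this]
  · intro h
    exact absurd (Finset.mem_filter.mpr ⟨Finset.mem_univ _, Finset.Subset.refl _⟩) h

lemma parseval_expan (ε : ℝ) (A : Finset (Fin n)) (b : Finset (Fin n) → ℝ) :
    ∑ x : Fin n → Bool, W ε x * (expan ε A b x) ^ 2 =
      ∑ S ∈ Finset.univ.filter (fun S => A ⊆ S), b S ^ 2 * (1 - ε ^ 2) ^ (S.card - A.card) := by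
  unfold expan
  simp_rw [sq, Finset.sum_mul_sum, Finset.mul_sum]
  rw [Finset.sum_comm]
  apply Finset.sum_congr rfl
  intro S hS
  rw [Finset.sum_comm]
  rw [Finset.sum_eq_single S]
  · have := orth ε (S \ A) (S \ A)
    rw [if_pos rfl] at this
    have hcard : (S \ A).card = S.card - A.card := by
      rw [Finset.card_sdiff_of_subset (Finset.mem_filter.mp hS).2]
    rw [hcard] at this
    have hsq : (1 - ε * ε) = 1 - ε ^ 2 := by ring
    rw [hsq, mul_assoc (b S) (b S), ← this, Finset.mul_sum, Finset.mul_sum]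
    apply Finset.sum_congr rfl
    intro x _
    ring
  · intro T hT hne
    have h := orth ε (S \ A) (T \ A)
    have hne' : S \ A ≠ T \ A := by
      intro e
      apply hne
      have hS' : A ⊆ S := (Finset.mem_filter.mp hS).2
      have hT' : A ⊆ T := (Finset.mem_filter.mp hT).2
      ext j
      by_cases hj : j ∈ A
      · simp [hS' hj, hT' hj]
      · have := congrArg (fun s => j ∈ s) e
        simp only [Finset.mem_sdiff, hj, not_false_eq_true, and_true, eq_iff_iff] at this
        simp [this]
    rw [if_neg hne'] at h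
    have : ∑ x : Fin n → Bool, W ε x * (b S * Psi ε (S \ A) x * (b T * Psi ε (T \ A) x)) =
        b S * b T * ∑ x : Fin n → Bool, W ε x * (Psi ε (S \ A) x * Psi ε (T \ A) x) := by
      rw [Finset.mul_sum]
      apply Finset.sum_congr rfl
      intro x _
      ring
    rw [this, h, mul_zero]
  · intro h
    exact absurd hS h

/-- Fourier inversion on the cube. -/
lemma fourier_inversion (f : (Fin n → Bool) → ℝ) (x : Fin n → Bool) :
    f x = ∑ T, fourierCoeff f T * chi T x := by
  have h1 : ∀ y : Fin n → Bool, ∑ T : Finset (Fin n), chi T y * chi T x =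
      if y = x then 2 ^ n else 0 := by
    intro y
    have h2 : ∀ T : Finset (Fin n), chi T y * chi T x =
        ∏ i ∈ T, (bitSign (y i) * bitSign (x i)) := by
      intro T
      unfold chi
      rw [Finset.prod_mul_distrib]
    simp_rw [h2]
    have h3 := Finset.prod_one_add (f := fun i => bitSign (y i) * bitSign (x i))
      (Finset.univ : Finset (Fin n))
    rw [Finset.powerset_univ] at h3
    rw [← h3]
    by_cases hyx : y = x
    · subst hyx
      simp only [if_true, bitSign_sq]
      norm_num
    · rw [if_neg hyx]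
      obtain ⟨i, hi⟩ := Function.ne_iff.mp hyx
      apply Finset.prod_eq_zero (Finset.mem_univ i)
      revert hi
      cases x i <;> cases y i <;> simp [bitSign]
  have h4 : ∑ T, fourierCoeff f T * chi T x =
      (∑ y, f y * ∑ T : Finset (Fin n), chi T y * chi T x) / 2 ^ n := by
    unfold fourierCoeff
    simp_rw [div_mul_eq_mul_div, Finset.sum_mul, Finset.mul_sum]
    rw [← Finset.sum_div]
    congr 1
    rw [Finset.sum_comm]
    apply Finset.sum_congr rfl
    intro y _
    apply Finset.sum_congr rfl
    intro T _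
    ring
  rw [h4]
  simp_rw [h1]
  have h5 : (2 : ℝ) ^ n ≠ 0 := by positivity
  simp [h5]

/-- expanding a character in the `Psi` -/
lemma chi_expand (ε : ℝ) (T : Finset (Fin n)) (x : Fin n → Bool) :
    chi T x = ∑ S ∈ T.powerset, Psi ε S x * ε ^ (T.card - S.card) := by
  unfold chi Psi
  have h1 : ∀ i ∈ T, bitSign (x i) = psi ε i x + ε := by
    intro i _
    simp [psi]
  rw [Finset.prod_congr rfl h1, Finset.prod_add]
  apply Finset.sum_congr rfl
  intro S hS
  rw [Finset.prod_const, Finset.card_sdiff_of_subset (Finset.mem_powerset.mp hS)]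

/-- coefficients in the `Psi` expansion -/
noncomputable def bcoef (c : Finset (Fin n) → ℝ) (ε : ℝ) (S : Finset (Fin n)) : ℝ :=
  ∑ T ∈ Finset.univ.filter (fun T => S ⊆ T), c T * ε ^ (T.card - S.card)

lemma f_eq_expan (f : (Fin n → Bool) → ℝ) (ε : ℝ) :
    f = expan ε ∅ (bcoef (fourierCoeff f) ε) := by
  funext x
  rw [fourier_inversion f x]
  unfold expan bcoef
  simp_rw [chi_expand ε, Finset.mul_sum, Finset.sum_mul]
  simp only [Finset.empty_subset, Finset.filter_true, Finset.sdiff_empty]
  have h1 : ∀ T : Finset (Fin n), ∑ S ∈ T.powerset, fourierCoeff f T * (Psi ε S x * ε ^ (T.card - S.card)) =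
      ∑ S : Finset (Fin n), if S ⊆ T then fourierCoeff f T * (Psi ε S x * ε ^ (T.card - S.card)) else 0 := by
    intro T
    rw [← Finset.sum_filter]
    apply Finset.sum_congr _ (fun _ _ => rfl)
    ext S
    simp
  simp_rw [h1]
  rw [Finset.sum_comm]
  apply Finset.sum_congr rfl
  intro S _
  rw [Finset.sum_filter]
  apply Finset.sum_congr rfl
  intro T _
  split_ifs
  · ring
  · rfl

lemma bcoef_eq_zero {c : Finset (Fin n) → ℝ} {d : ℕ} (hdeg : ∀ S : Finset (Fin n), d < S.card → c S = 0)
    (ε : ℝ) {S : Finset (Fin n)} (hS : d < S.card) : bcoef c ε S = 0 := by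
  unfold bcoef
  apply Finset.sum_eq_zero
  intro T hT
  have hT' : S ⊆ T := (Finset.mem_filter.mp hT).2
  rw [hdeg T (lt_of_lt_of_le hS (Finset.card_le_card hT')), zero_mul]

/-- The polynomial `ε ↦ E_ε f` attached to a family of Fourier coefficients. -/
noncomputable def polyOf (c : Finset (Fin n) → ℝ) : Polynomial ℝ :=
  ∑ T : Finset (Fin n), Polynomial.C (c T) * Polynomial.X ^ T.card

lemma eval_polyOf (c : Finset (Fin n) → ℝ) (ε : ℝ) :
    (polyOf c).eval ε = bcoef c ε ∅ := by
  unfold polyOf bcoef
  simp [Polynomial.eval_finsetSum]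

lemma eval_derivative_polyOf (c : Finset (Fin n) → ℝ) (ε : ℝ) :
    (Polynomial.derivative (polyOf c)).eval ε = ∑ i, bcoef c ε {i} := by
  unfold polyOf bcoef
  simp only [Polynomial.derivative_sum, Polynomial.eval_finsetSum, Polynomial.derivative_C_mul,
    Polynomial.derivative_X_pow, Polynomial.eval_mul, Polynomial.eval_C, Polynomial.eval_pow,
    Polynomial.eval_X, Finset.singleton_subset_iff, Finset.card_singleton]
  simp_rw [Finset.sum_filter]
  rw [Finset.sum_comm]
  apply Finset.sum_congr rfl
  intro T _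
  have : ∑ i : Fin n, (if i ∈ T then c T * ε ^ (T.card - 1) else 0) =
      (T.card : ℝ) * (c T * ε ^ (T.card - 1)) := by
    rw [Finset.sum_ite_mem]
    simp
  rw [this]
  ring

lemma eval_der2_term (a : ℝ) (k : ℕ) (ε : ℝ) :
    (Polynomial.derivative (Polynomial.derivative (Polynomial.C a * Polynomial.X ^ k))).eval ε =
      a * (k : ℝ) * ((k - 1 : ℕ) : ℝ) * ε ^ (k - 1 - 1) := by
  have h : Polynomial.derivative (Polynomial.derivative (Polynomial.C a * Polynomial.X ^ k)) =
      Polynomial.C a * (Polynomial.C (k : ℝ) * (Polynomial.C ((k - 1 : ℕ) : ℝ) *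
        Polynomial.X ^ (k - 1 - 1))) := by
    simp only [Polynomial.derivative_C_mul, Polynomial.derivative_X_pow]
  rw [h]
  simp only [Polynomial.eval_mul, Polynomial.eval_C, Polynomial.eval_pow, Polynomial.eval_X]
  ring

lemma eval_derivative2_polyOf (c : Finset (Fin n) → ℝ) (ε : ℝ) :
    (Polynomial.derivative (Polynomial.derivative (polyOf c))).eval ε =
      ∑ p ∈ (Finset.univ : Finset (Fin n)).offDiag, bcoef c ε {p.1, p.2} := by
  unfold polyOf bcoef
  simp only [Polynomial.derivative_sum, Polynomial.eval_finsetSum, eval_der2_term]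
  have h0 : ∀ p ∈ (Finset.univ : Finset (Fin n)).offDiag,
      (∑ T ∈ Finset.univ.filter (fun T => ({p.1, p.2} : Finset (Fin n)) ⊆ T),
        c T * ε ^ (T.card - ({p.1, p.2} : Finset (Fin n)).card)) =
      ∑ T : Finset (Fin n), if p ∈ T.offDiag then c T * ε ^ (T.card - 2) else 0 := by
    intro p hp
    have hne : p.1 ≠ p.2 := (Finset.mem_offDiag.mp hp).2.2
    rw [Finset.sum_filter]
    apply Finset.sum_congr rfl
    intro T _
    have hcard : ({p.1, p.2} : Finset (Fin n)).card = 2 := Finset.card_pair hne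
    have hiff : ({p.1, p.2} : Finset (Fin n)) ⊆ T ↔ p ∈ T.offDiag := by
      simp only [Finset.insert_subset_iff, Finset.singleton_subset_iff, Finset.mem_offDiag]
      tauto
    simp only [hiff, hcard]
  rw [Finset.sum_congr rfl h0, Finset.sum_comm]
  apply Finset.sum_congr rfl
  intro T _
  have h1 : ∑ p ∈ (Finset.univ : Finset (Fin n)).offDiag,
      (if p ∈ T.offDiag then c T * ε ^ (T.card - 2) else 0) =
      (T.offDiag.card : ℝ) * (c T * ε ^ (T.card - 2)) := by
    rw [← Finset.sum_filter]
    have : (Finset.univ : Finset (Fin n)).offDiag.filter (fun p => p ∈ T.offDiag) = T.offDiag := by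
      ext p
      simp only [Finset.mem_filter, Finset.mem_offDiag, Finset.mem_univ, true_and]
      tauto
    rw [this]
    simp
  rw [h1, Finset.offDiag_card]
  have h2 : T.card - 1 - 1 = T.card - 2 := by omega
  rw [h2]
  rcases Nat.lt_or_ge T.card 1 with h | h
  · have : T.card = 0 := by omega
    simp [this]
  · have h3 : ((T.card * T.card - T.card : ℕ) : ℝ) = (T.card : ℝ) * ((T.card - 1 : ℕ) : ℝ) := by
      have : T.card * T.card - T.card = T.card * (T.card - 1) := by
        rw [Nat.mul_sub, mul_one]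
      rw [this]
      push_cast
      ring
    rw [h3]
    ring

section Boolean

variable (f : (Fin n → Bool) → ℝ) (hf : ∀ x, f x = 1 ∨ f x = -1)

include hf

lemma abs_delta_eq (i : Fin n) (x : Fin n → Bool) :
    |delta i f x| = (delta i f x) ^ 2 := by
  unfold delta
  rcases hf (Function.update x i true) with h1 | h1 <;>
    rcases hf (Function.update x i false) with h2 | h2 <;>
    rw [h1, h2] <;> norm_num

lemma abs_delta2_le (i j : Fin n) (x : Fin n → Bool) :
    |delta j (delta i f) x| ≤ 2 * (delta j (delta i f) x) ^ 2 := by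
  unfold delta
  rcases hf (Function.update (Function.update x j true) i true) with h1 | h1 <;>
    rcases hf (Function.update (Function.update x j true) i false) with h2 | h2 <;>
    rcases hf (Function.update (Function.update x j false) i true) with h3 | h3 <;>
    rcases hf (Function.update (Function.update x j false) i false) with h4 | h4 <;>
    rw [h1, h2, h3, h4] <;> norm_num

omit hf in
lemma sum_W_abs_le {ε : ℝ} (h1 : -1 ≤ ε) (h2 : ε ≤ 1) (g : (Fin n → Bool) → ℝ) :
    |∑ x, W ε x * g x| ≤ ∑ x, W ε x * |g x| := by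
  calc |∑ x, W ε x * g x| ≤ ∑ x, |W ε x * g x| := Finset.abs_sum_le_sum_abs _ _
    _ = ∑ x, W ε x * |g x| := by
      apply Finset.sum_congr rfl
      intro x _
      rw [abs_mul, abs_of_nonneg (W_nonneg h1 h2 x)]

lemma parseval_f (ε : ℝ) :
    ∑ S : Finset (Fin n), (bcoef (fourierCoeff f) ε S) ^ 2 * (1 - ε ^ 2) ^ S.card = 1 := by
  have h := parseval_expan ε ∅ (bcoef (fourierCoeff f) ε)
  rw [← f_eq_expan f ε] at h
  simp only [Finset.empty_subset, Finset.filter_true, Finset.card_empty, Nat.sub_zero] at h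
  rw [← h, ← sum_W ε]
  apply Finset.sum_congr rfl
  intro x _
  rcases hf x with h1 | h1 <;> rw [h1] <;> norm_num

/-- First derivative bound, at the level of the coefficients. -/
lemma first_bound {ε : ℝ} (h1 : -1 ≤ ε) (h2 : ε ≤ 1) (i : Fin n) :
    (1 - ε ^ 2) * |bcoef (fourierCoeff f) ε {i}| ≤
      ∑ S ∈ Finset.univ.filter (fun S : Finset (Fin n) => i ∈ S),
        (bcoef (fourierCoeff f) ε S) ^ 2 * (1 - ε ^ 2) ^ S.card := by
  set b := bcoef (fourierCoeff f) ε with hb
  have ht : 0 ≤ 1 - ε ^ 2 := by nlinarith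
  have hg : delta i f = expan ε {i} b := by
    funext x
    conv_lhs => rw [f_eq_expan f ε]
    rw [delta_expan ε ∅ _ (by simp)]
    simp [hb]
  have hmean := mean_expan ε {i} b
  have hpar := parseval_expan ε {i} b
  rw [← hg] at hmean hpar
  have h3 : |b {i}| ≤ ∑ S ∈ Finset.univ.filter (fun S : Finset (Fin n) => ({i} : Finset (Fin n)) ⊆ S),
      b S ^ 2 * (1 - ε ^ 2) ^ (S.card - ({i} : Finset (Fin n)).card) := by
    rw [← hpar, ← hmean]
    refine (sum_W_abs_le h1 h2 _).trans (le_of_eq ?_)
    apply Finset.sum_congr rfl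
    intro x _
    rw [abs_delta_eq f hf]
  calc (1 - ε ^ 2) * |b {i}| ≤ (1 - ε ^ 2) * ∑ S ∈ Finset.univ.filter
        (fun S : Finset (Fin n) => ({i} : Finset (Fin n)) ⊆ S),
        b S ^ 2 * (1 - ε ^ 2) ^ (S.card - ({i} : Finset (Fin n)).card) :=
        mul_le_mul_of_nonneg_left h3 ht
    _ = _ := by
      rw [Finset.mul_sum]
      apply Finset.sum_congr
      · ext S
        simp
      · intro S hS
        have hS' : i ∈ S := by
          have := (Finset.mem_filter.mp hS).2
          simpa using this
        have hc : 1 ≤ S.card := Finset.card_pos.mpr ⟨i, hS'⟩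
        have : S.card = (S.card - 1) + 1 := by omega
        rw [Finset.card_singleton]
        conv_rhs => rw [this, pow_succ]
        ring

/-- Second derivative bound, at the level of the coefficients. -/
lemma second_bound {ε : ℝ} (h1 : -1 ≤ ε) (h2 : ε ≤ 1) {i j : Fin n} (hij : i ≠ j) :
    (1 - ε ^ 2) ^ 2 * |bcoef (fourierCoeff f) ε {i, j}| ≤
      2 * ∑ S ∈ Finset.univ.filter (fun S : Finset (Fin n) => (i, j) ∈ S.offDiag),
        (bcoef (fourierCoeff f) ε S) ^ 2 * (1 - ε ^ 2) ^ S.card := by
  set b := bcoef (fourierCoeff f) ε with hb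
  have ht : 0 ≤ 1 - ε ^ 2 := by nlinarith
  have hpair : ({i, j} : Finset (Fin n)) = insert j {i} := by
    ext k
    simp only [Finset.mem_insert, Finset.mem_singleton]
    tauto
  have hg : delta j (delta i f) = expan ε {i, j} b := by
    funext x
    have hg1 : delta i f = expan ε {i} b := by
      funext y
      conv_lhs => rw [f_eq_expan f ε]
      rw [delta_expan ε ∅ _ (by simp)]
      simp [hb]
    rw [hg1, delta_expan ε {i} _ (by simpa using hij.symm), hpair]
  have hmean := mean_expan ε {i, j} b
  have hpar := parseval_expan ε {i, j} b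
  rw [← hg] at hmean hpar
  have hcard : ({i, j} : Finset (Fin n)).card = 2 := Finset.card_pair hij
  have h3 : |b {i, j}| ≤ 2 * ∑ S ∈ Finset.univ.filter
      (fun S : Finset (Fin n) => ({i, j} : Finset (Fin n)) ⊆ S),
      b S ^ 2 * (1 - ε ^ 2) ^ (S.card - ({i, j} : Finset (Fin n)).card) := by
    rw [← hpar, ← hmean]
    refine (sum_W_abs_le h1 h2 _).trans ?_
    rw [Finset.mul_sum]
    apply Finset.sum_le_sum
    intro x _
    have := abs_delta2_le f hf i j x
    have hW := W_nonneg (n := n) h1 h2 x
    nlinarith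
  calc (1 - ε ^ 2) ^ 2 * |b {i, j}| ≤ (1 - ε ^ 2) ^ 2 * (2 * ∑ S ∈ Finset.univ.filter
      (fun S : Finset (Fin n) => ({i, j} : Finset (Fin n)) ⊆ S),
      b S ^ 2 * (1 - ε ^ 2) ^ (S.card - ({i, j} : Finset (Fin n)).card)) :=
        mul_le_mul_of_nonneg_left h3 (by positivity)
    _ = _ := by
      rw [mul_left_comm, Finset.mul_sum]
      congr 1
      apply Finset.sum_congr
      · ext S
        simp only [Finset.mem_filter, Finset.mem_univ, true_and, Finset.insert_subset_iff,
          Finset.singleton_subset_iff, Finset.mem_offDiag]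
        tauto
      · intro S hS
        have hS'' : (i, j) ∈ S.offDiag := (Finset.mem_filter.mp hS).2
        have hS' : ({i, j} : Finset (Fin n)) ⊆ S := by
          have := Finset.mem_offDiag.mp hS''
          simp only [Finset.insert_subset_iff, Finset.singleton_subset_iff]
          exact ⟨this.1, this.2.1⟩
        have hc : 2 ≤ S.card := by
          rw [← hcard]
          exact Finset.card_le_card hS'
        have : S.card = (S.card - 2) + 2 := by omega
        rw [hcard]
        conv_rhs => rw [this, pow_add]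
        ring

/-- The two differential inequalities for a Boolean function of degree at most `d`. -/
theorem biased_bounds {d : ℕ} (hdeg : ∀ S : Finset (Fin n), d < S.card → fourierCoeff f S = 0)
    {ε : ℝ} (h1 : -1 ≤ ε) (h2 : ε ≤ 1) :
    ((polyOf (fourierCoeff f)).eval ε) ^ 2 ≤ 1 ∧
    (1 - ε ^ 2) * |(Polynomial.derivative (polyOf (fourierCoeff f))).eval ε| ≤
      d * (1 - ((polyOf (fourierCoeff f)).eval ε) ^ 2) ∧
    (1 - ε ^ 2) ^ 2 *
        |(Polynomial.derivative (Polynomial.derivative (polyOf (fourierCoeff f)))).eval ε| ≤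
      2 * (d * (d - 1)) * (1 - ((polyOf (fourierCoeff f)).eval ε) ^ 2) := by
  set b := bcoef (fourierCoeff f) ε with hb
  have ht : 0 ≤ 1 - ε ^ 2 := by nlinarith
  have hP : (polyOf (fourierCoeff f)).eval ε = b ∅ := eval_polyOf _ _
  rw [eval_derivative_polyOf, eval_derivative2_polyOf, hP, ← hb]
  have hpar := parseval_f f hf ε
  rw [← hb] at hpar
  have hsplit : ∑ S ∈ Finset.univ.erase (∅ : Finset (Fin n)), b S ^ 2 * (1 - ε ^ 2) ^ S.card =
      1 - (b ∅) ^ 2 := by
    have h := Finset.add_sum_erase Finset.univ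
      (fun S : Finset (Fin n) => b S ^ 2 * (1 - ε ^ 2) ^ S.card) (Finset.mem_univ ∅)
    simp only [Finset.card_empty, pow_zero, mul_one] at h
    linarith
  have hnonneg : ∀ S : Finset (Fin n), 0 ≤ b S ^ 2 * (1 - ε ^ 2) ^ S.card := fun S => by positivity
  refine ⟨?_, ?_, ?_⟩
  · have : 0 ≤ 1 - (b ∅) ^ 2 := by
      rw [← hsplit]
      exact Finset.sum_nonneg fun S _ => hnonneg S
    linarith
  · calc (1 - ε ^ 2) * |∑ i, b {i}| ≤ (1 - ε ^ 2) * ∑ i, |b {i}| :=
          mul_le_mul_of_nonneg_left (Finset.abs_sum_le_sum_abs _ _) ht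
      _ = ∑ i, (1 - ε ^ 2) * |b {i}| := by rw [Finset.mul_sum]
      _ ≤ ∑ i, ∑ S ∈ Finset.univ.filter (fun S : Finset (Fin n) => i ∈ S),
            b S ^ 2 * (1 - ε ^ 2) ^ S.card :=
          Finset.sum_le_sum fun i _ => first_bound f hf h1 h2 i
      _ = ∑ S : Finset (Fin n), (S.card : ℝ) * (b S ^ 2 * (1 - ε ^ 2) ^ S.card) := by
          simp_rw [Finset.sum_filter]
          rw [Finset.sum_comm]
          apply Finset.sum_congr rfl
          intro S _
          rw [Finset.sum_ite_mem]
          simp
      _ = ∑ S ∈ Finset.univ.erase (∅ : Finset (Fin n)),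
            (S.card : ℝ) * (b S ^ 2 * (1 - ε ^ 2) ^ S.card) := by
          rw [← Finset.add_sum_erase Finset.univ _ (Finset.mem_univ (∅ : Finset (Fin n)))]
          simp
      _ ≤ ∑ S ∈ Finset.univ.erase (∅ : Finset (Fin n)),
            (d : ℝ) * (b S ^ 2 * (1 - ε ^ 2) ^ S.card) := by
          apply Finset.sum_le_sum
          intro S _
          by_cases hS : d < S.card
          · have hb0 : b S = 0 := bcoef_eq_zero hdeg ε hS
            simp [hb0]
          · have : (S.card : ℝ) ≤ d := by exact_mod_cast not_lt.mp hS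
            exact mul_le_mul_of_nonneg_right this (hnonneg S)
      _ = d * (1 - (b ∅) ^ 2) := by rw [← Finset.mul_sum, hsplit]
  · calc (1 - ε ^ 2) ^ 2 * |∑ p ∈ (Finset.univ : Finset (Fin n)).offDiag, b {p.1, p.2}|
        ≤ (1 - ε ^ 2) ^ 2 * ∑ p ∈ (Finset.univ : Finset (Fin n)).offDiag, |b {p.1, p.2}| :=
          mul_le_mul_of_nonneg_left (Finset.abs_sum_le_sum_abs _ _) (by positivity)
      _ = ∑ p ∈ (Finset.univ : Finset (Fin n)).offDiag, (1 - ε ^ 2) ^ 2 * |b {p.1, p.2}| := by
          rw [Finset.mul_sum]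
      _ ≤ ∑ p ∈ (Finset.univ : Finset (Fin n)).offDiag, 2 * ∑ S ∈ Finset.univ.filter
            (fun S : Finset (Fin n) => (p.1, p.2) ∈ S.offDiag), b S ^ 2 * (1 - ε ^ 2) ^ S.card := by
          apply Finset.sum_le_sum
          intro p hp
          exact second_bound f hf h1 h2 (Finset.mem_offDiag.mp hp).2.2
      _ = 2 * ∑ S : Finset (Fin n), (S.offDiag.card : ℝ) * (b S ^ 2 * (1 - ε ^ 2) ^ S.card) := by
          rw [← Finset.mul_sum]
          congr 1
          simp_rw [Finset.sum_filter]
          rw [Finset.sum_comm]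
          apply Finset.sum_congr rfl
          intro S _
          rw [← Finset.sum_filter]
          have : (Finset.univ : Finset (Fin n)).offDiag.filter
              (fun p => (p.1, p.2) ∈ S.offDiag) = S.offDiag := by
            ext p
            simp only [Finset.mem_filter, Finset.mem_offDiag, Finset.mem_univ, true_and]
            tauto
          rw [this]
          simp
      _ ≤ 2 * ∑ S ∈ Finset.univ.erase (∅ : Finset (Fin n)),
            ((d : ℝ) * (d - 1)) * (b S ^ 2 * (1 - ε ^ 2) ^ S.card) := by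
          apply mul_le_mul_of_nonneg_left _ (by norm_num)
          rw [← Finset.add_sum_erase Finset.univ _ (Finset.mem_univ (∅ : Finset (Fin n)))]
          simp only [Finset.offDiag_empty, Finset.card_empty, Nat.cast_zero, zero_mul, zero_add]
          apply Finset.sum_le_sum
          intro S hS
          by_cases hSd : d < S.card
          · have hb0 : b S = 0 := bcoef_eq_zero hdeg ε hSd
            simp [hb0]
          · have hle : (S.card : ℝ) ≤ d := by exact_mod_cast not_lt.mp hSd
            have hS1 : 1 ≤ S.card := by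
              have : S ≠ ∅ := (Finset.mem_erase.mp hS).1
              exact Finset.card_pos.mpr (Finset.nonempty_iff_ne_empty.mpr this)
            have hS1' : (1 : ℝ) ≤ S.card := by exact_mod_cast hS1
            have hoff : (S.offDiag.card : ℝ) = (S.card : ℝ) * (S.card - 1) := by
              rw [Finset.offDiag_card]
              have : S.card * S.card - S.card = S.card * (S.card - 1) := by
                rw [Nat.mul_sub, mul_one]
              rw [this]
              push_cast [Nat.cast_sub hS1]
              ring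
            rw [hoff]
            apply mul_le_mul_of_nonneg_right _ (hnonneg S)
            nlinarith
      _ = 2 * (d * (d - 1)) * (1 - (b ∅) ^ 2) := by
          rw [← Finset.mul_sum, hsplit]
          ring

end Boolean

end Vale.Agent.Lib.P047h
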