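import Mathlib

/-!
Basic definitions for Boolean analysis on the discrete cube, written with `Fin n → Bool`
as the cube and `bitSign` as the identification of a bit with `+1` or `-1`.
-/

namespace Vale.Agent.Lib.P047h

/-- The sign of a bit: `true` is `+1`, `false` is `-1`. -/
def bitSign (b : Bool) : ℝ := if b then 1 else -1

/-- The character `x ↦ ∏ i ∈ S, x i` of the cube. -/
noncomputable def chi {n : ℕ} (S : Finset (Fin n)) (x : Fin n → Bool) : ℝ :=
  ∏ i ∈ S, bitSign (x i)

/-- The Fourier coefficient `E[f(X) ∏_{i ∈ S} X_i]`, for `X` uniform on the cube. -/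
noncomputable def fourierCoeff {n : ℕ} (f : (Fin n → Bool) → ℝ) (S : Finset (Fin n)) : ℝ :=
  (∑ x, f x * chi S x) / 2 ^ n

end Vale.Agent.Lib.P047h
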