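import Vale.Agent.Lib.P047h.Span

/-!
The main estimate for polynomials with bounded derivatives on `[-1, 1]`.
-/

namespace Vale.Agent.Lib.P047h

open Finset Real

/-- the modified weights -/
noncomputable def aK (D k : ℕ) : ℝ := cK D k + (1 / (10 * D)) * (eL D k - eL D (k + 1))

lemma sum_eL_tau {D : ℕ} (hD : 0 < D) {G G1 G2 : ℝ → ℝ} (h : GoodData D G G1 G2) :
    ∑ k ∈ range (2 * D), eL D k * G (tau D k) = G2 (tau D 0) := by
  rw [← h.2.2.2.1 (tau D 0)]
  apply Finset.sum_congr rfl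
  intro k _
  rw [tau_succ hD k]

lemma sum_eL_succ_tau {D : ℕ} (hD : 0 < D) {G G1 G2 : ℝ → ℝ} (h : GoodData D G G1 G2) :
    ∑ k ∈ range (2 * D), eL D (k + 1) * G (tau D k) = G2 (- tau D 0) := by
  have hD' : (D : ℝ) ≠ 0 := by exact_mod_cast hD.ne'
  rw [← h.2.2.2.1 (- tau D 0), sum_range_two_mul D hD (fun l => eL D l * G (- tau D 0 + l * (π / D)))]
  have e : 2 * D = (2 * D - 1) + 1 := by omega
  conv_lhs => rw [e, Finset.sum_range_succ]
  have htop : eL D (2 * D - 1 + 1) * G (tau D (2 * D - 1)) =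
      eL D 0 * G (- tau D 0 + ((0 : ℕ) : ℝ) * (π / D)) := by
    have e2 : 2 * D - 1 + 1 = 2 * D := by omega
    rw [e2, eL_top, eL_zero]
    have h1 := tau_reflect (D := D) (k := 0) (by omega)
    rw [Nat.sub_zero] at h1
    rw [h1]
    have h2 := h.2.2.2.2 (- tau D 0)
    rw [show 2 * π - tau D 0 = - tau D 0 + 2 * π by ring, h2]
    simp
  have hmid : ∀ k ∈ range (2 * D - 1), eL D (k + 1) * G (tau D k) =
      eL D (k + 1) * G (- tau D 0 + ((k + 1 : ℕ) : ℝ) * (π / D)) := by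
    intro k _
    congr 2
    unfold tau
    push_cast
    field_simp
    ring
  rw [htop, Finset.sum_congr rfl hmid]
  ring

lemma main_formula {D : ℕ} (hD : 0 < D) {G G1 G2 : ℝ → ℝ} (h : GoodData D G G1 G2) :
    ∑ k ∈ range (2 * D), aK D k * G (tau D k) =
      G1 0 + (1 / (10 * (D : ℝ))) * (G2 (tau D 0) - G2 (- tau D 0)) := by
  have h1 := h.2.2.1
  have h2 := sum_eL_tau hD h
  have h3 := sum_eL_succ_tau hD h
  rw [← h1, ← h2, ← h3, mul_sub, Finset.mul_sum, Finset.mul_sum, ← Finset.sum_sub_distrib,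
    ← Finset.sum_add_distrib]
  apply Finset.sum_congr rfl
  intro k _
  unfold aK
  ring

/-- concavity of `sin` gives a ratio bound -/
lemma sin_ratio {x a : ℝ} (ha : 0 < a) (hax : a ≤ x) (hx : x + a / 2 ≤ π) :
    sin (x + a / 2) ≤ 3 / 2 * sin x := by
  have hconc := strictConcaveOn_sin_Icc.concaveOn
  have hpos : 0 < x + a / 2 := by linarith
  have hx0 : 0 < x := by linarith
  have hb0 : 0 ≤ (a / 2) / (x + a / 2) := by positivity
  have hb1 : 0 ≤ x / (x + a / 2) := by positivity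
  have hsum : (a / 2) / (x + a / 2) + x / (x + a / 2) = 1 := by
    field_simp
    ring
  have h0mem : (0 : ℝ) ∈ Set.Icc 0 π := ⟨le_rfl, pi_pos.le⟩
  have h1mem : x + a / 2 ∈ Set.Icc 0 π := ⟨hpos.le, hx⟩
  have := hconc.2 h0mem h1mem hb0 hb1 hsum
  simp only [smul_eq_mul, mul_zero, sin_zero, zero_add] at this
  have e : x / (x + a / 2) * (x + a / 2) = x := by
    field_simp
  rw [e] at this
  have hS : 0 ≤ sin (x + a / 2) := sin_nonneg_of_nonneg_of_le_pi hpos.le hx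
  have hb2 : 2 / 3 ≤ x / (x + a / 2) := by
    rw [le_div_iff₀ hpos]
    linarith
  nlinarith

lemma neg_one_pow_mul_self (k : ℕ) : (-1 : ℝ) ^ k * (-1) ^ k = 1 := by
  rw [← mul_pow]
  simp

lemma aK_sign {D k : ℕ} (h1 : 1 ≤ k) (h2 : k + 2 ≤ 2 * D) :
    0 ≤ (-1) ^ k * aK D k ∧ (-1) ^ k * aK D k ≤ (-1) ^ k * cK D k := by
  have hD : 0 < D := by omega
  have hD' : (0 : ℝ) < D := by exact_mod_cast hD
  have hk0 : k < 2 * D := by omega
  set u : ℝ := π / (2 * D) with hu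
  have hupos : 0 < u := by positivity
  have huD : (2 * (D : ℝ)) * u = π := by
    rw [hu]
    field_simp
  have hk1 : (1 : ℝ) ≤ k := by exact_mod_cast h1
  have hk2 : (k : ℝ) + 2 ≤ 2 * D := by exact_mod_cast h2
  set s : ℝ := sin (tau D k / 2) with hs
  set s1 : ℝ := sin ((k : ℝ) * π / (2 * D)) with hs1
  set s2 : ℝ := sin (((k + 1 : ℕ) : ℝ) * π / (2 * D)) with hs2
  have hspos : 0 < s := sin_half_tau_pos hk0
  have e1 : (k : ℝ) * π / (2 * D) = k * u := by
    rw [hu]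
    ring
  have e2 : ((k + 1 : ℕ) : ℝ) * π / (2 * D) = (k + 1) * u := by
    rw [hu]
    push_cast
    ring
  have e3 : tau D k / 2 = k * u + u / 2 := by
    unfold tau
    rw [hu]
    field_simp
  have hs1pos : 0 < s1 := by
    rw [hs1, e1]
    apply sin_pos_of_pos_of_lt_pi (by positivity)
    nlinarith
  have hs2pos : 0 < s2 := by
    rw [hs2, e2]
    apply sin_pos_of_pos_of_lt_pi (by positivity)
    nlinarith
  have hr1 : s ≤ 3 / 2 * s1 := by
    rw [hs, hs1, e3, e1]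
    apply sin_ratio hupos
    · nlinarith
    · nlinarith
  have hr2 : s ≤ 3 / 2 * s2 := by
    have e4 : s2 = sin ((2 * (D : ℝ) - (k + 1)) * u) := by
      rw [hs2, e2, ← sin_pi_sub]
      congr 1
      rw [← huD]
      ring
    have e5 : s = sin ((2 * (D : ℝ) - (k + 1)) * u + u / 2) := by
      rw [hs, e3, ← sin_pi_sub]
      congr 1
      rw [← huD]
      ring
    rw [e4, e5]
    apply sin_ratio hupos
    · nlinarith
    · nlinarith
  have heL1 : eL D k = eRaw D k := eL_of (by omega) hk0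
  have heL2 : eL D (k + 1) = eRaw D (k + 1) := eL_of (by omega) (by omega)
  have hP := neg_one_pow_mul_self k
  -- the two reciprocal bounds
  have hB1 : 1 / s1 ^ 2 ≤ (9 / 4) * (1 / s ^ 2) := by
    rw [← mul_div_assoc, div_le_div_iff₀ (by positivity) (by positivity)]
    nlinarith
  have hB2 : 1 / s2 ^ 2 ≤ (9 / 4) * (1 / s ^ 2) := by
    rw [← mul_div_assoc, div_le_div_iff₀ (by positivity) (by positivity)]
    nlinarith
  have hmain : (-1) ^ k * aK D k = (1 / (D : ℝ)) * ((1 / 4) * (1 / s ^ 2) -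
      (1 / 20) * (1 / s1 ^ 2 + 1 / s2 ^ 2)) := by
    unfold aK cK
    rw [heL1, heL2]
    unfold eRaw
    rw [← hs, ← hs1, ← hs2, pow_succ (-1 : ℝ) (k + 1), pow_succ (-1 : ℝ) k]
    have e6 : (-1 : ℝ) ^ k * ((-1) ^ k / (4 * D * s ^ 2) + 1 / (10 * D) *
        ((-1) ^ k * -1 / (2 * s1 ^ 2) - (-1) ^ k * -1 * -1 / (2 * s2 ^ 2))) =
        ((-1 : ℝ) ^ k * (-1) ^ k) * (1 / (4 * D * s ^ 2) + 1 / (10 * D) *
        (-1 / (2 * s1 ^ 2) - 1 / (2 * s2 ^ 2))) := by
      field_simp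
    rw [e6, hP]
    field_simp
    ring
  have hcmain : (-1) ^ k * cK D k = (1 / (D : ℝ)) * ((1 / 4) * (1 / s ^ 2)) := by
    unfold cK
    rw [← hs, ← mul_div_assoc, hP]
    field_simp
  have hI : 0 < 1 / (D : ℝ) := by positivity
  have hA : 0 < 1 / s ^ 2 := by positivity
  have hA1 : 0 < 1 / s1 ^ 2 := by positivity
  have hA2 : 0 < 1 / s2 ^ 2 := by positivity
  constructor
  · rw [hmain]
    apply mul_nonneg hI.le
    linarith
  · rw [hmain, hcmain]
    apply mul_le_mul_of_nonneg_left _ hI.le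
    linarith

lemma sum_split (D : ℕ) (hD : 0 < D) (f : ℕ → ℝ) :
    ∑ k ∈ range (2 * D), f k = f 0 + ∑ k ∈ range (2 * D - 2), f (k + 1) + f (2 * D - 1) := by
  have e : 2 * D = (2 * D - 2) + 1 + 1 := by omega
  conv_lhs => rw [e, Finset.sum_range_succ, Finset.sum_range_succ']
  have e2 : 2 * D - 2 + 1 = 2 * D - 1 := by omega
  rw [e2]
  ring

lemma aK_top {D : ℕ} (hD : 0 < D) : aK D (2 * D - 1) = - aK D 0 := by
  have hD' : (D : ℝ) ≠ 0 := by exact_mod_cast hD.ne'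
  unfold aK
  have h1 := cK_reflect (D := D) (k := 0) (by omega)
  rw [Nat.sub_zero] at h1
  have e2 : 2 * D - 1 + 1 = 2 * D := by omega
  rw [h1, e2, eL_top, eL_zero, eL_of (D := D) (l := 2 * D - 1) (by omega) (by omega),
    eL_of (D := D) (l := 0 + 1) (by omega) (by omega)]
  have h3 : eRaw D (2 * D - 1) = eRaw D (0 + 1) := by
    unfold eRaw
    have e4 : 2 * D - 1 + 1 = 2 * D := by omega
    have e5 : (-1 : ℝ) ^ (2 * D) = 1 := by
      rw [pow_mul]
      simp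
    rw [e4, e5]
    have e6 : ((2 * D - 1 : ℕ) : ℝ) * π / (2 * D) = π - ((0 + 1 : ℕ) : ℝ) * π / (2 * D) := by
      rw [Nat.cast_sub (by omega)]
      push_cast
      field_simp
    rw [e6, sin_pi_sub]
    norm_num
  rw [h3]
  ring

/-- total mass of the modified weights -/
lemma mass_a {D : ℕ} (hD : 0 < D) :
    ∑ k ∈ range (2 * D), aK D k * (-1) ^ k = D - D / 5 := by
  have hD' : (D : ℝ) ≠ 0 := by exact_mod_cast hD.ne'
  have h := main_formula hD (goodData_sin hD (le_refl D))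
  have e1 : ∀ k ∈ range (2 * D), aK D k * (-1) ^ k = aK D k * sin (D * tau D k) := by
    intro k _
    rw [sin_D_tau hD]
  rw [Finset.sum_congr rfl e1, h]
  have e2 : (D : ℝ) * tau D 0 = π / 2 := by
    unfold tau
    field_simp
    simp
  have e3 : (D : ℝ) * (- tau D 0) = - (π / 2) := by
    rw [mul_neg, e2]
  simp only [mul_zero, cos_zero, mul_one]
  rw [e2, e3, sin_neg, sin_pi_div_two]
  field_simp
  ring

lemma mass_c {D : ℕ} (hD : 0 < D) :
    ∑ k ∈ range (2 * D), cK D k * (-1) ^ k = D := by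
  have h := rieszS_eq (le_refl D)
  unfold rieszS at h
  rw [← h]
  apply Finset.sum_congr rfl
  intro k _
  rw [sin_D_tau hD]

lemma cK_zero_lower {D : ℕ} (hD : 0 < D) : (2 / 5 : ℝ) * D ≤ cK D 0 := by
  have hD' : (0 : ℝ) < D := by exact_mod_cast hD
  have h1 : tau D 0 / 2 = π / (4 * D) := by
    unfold tau
    field_simp
    simp
    ring
  unfold cK
  rw [h1, pow_zero]
  have hx : 0 < π / (4 * (D : ℝ)) := by positivity
  have hs0 : 0 < sin (π / (4 * (D : ℝ))) := by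
    apply sin_pos_of_pos_of_lt_pi hx
    rw [div_lt_iff₀ (by positivity)]
    have : (1 : ℝ) ≤ D := by exact_mod_cast hD
    nlinarith [pi_pos]
  have hs1 : sin (π / (4 * (D : ℝ))) ≤ π / (4 * D) := sin_le hx.le
  have hs2 : sin (π / (4 * (D : ℝ))) ^ 2 ≤ (π / (4 * D)) ^ 2 := by
    apply pow_le_pow_left₀ hs0.le hs1
  have hpi : π ^ 2 ≤ 10 := by
    have := pi_lt_d2
    have h2 := pi_pos
    nlinarith
  rw [le_div_iff₀ (by positivity)]
  have h3 : (π / (4 * (D : ℝ))) ^ 2 * (D : ℝ) ^ 2 = π ^ 2 / 16 := by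
    field_simp
    ring
  have h4 : sin (π / (4 * (D : ℝ))) ^ 2 * (D : ℝ) ^ 2 ≤ π ^ 2 / 16 := by
    rw [← h3]
    exact mul_le_mul_of_nonneg_right hs2 (by positivity)
  nlinarith

/-- The abstract main estimate. -/
lemma final_estimate {D : ℕ} (hD : 0 < D) {G G1 G2 : ℝ → ℝ} (h : GoodData D G G1 G2)
    (hb : ∀ θ, |G θ| ≤ 1)
    (h2 : |G2 (tau D 0)| ≤ 2 * (D : ℝ) ^ 2 * (1 - G (tau D 0) ^ 2))
    (h3 : |G2 (- tau D 0)| ≤ 2 * (D : ℝ) ^ 2 * (1 - G (- tau D 0) ^ 2)) :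
    G1 0 ≤ (33 / 40) * D := by
  have hD' : (0 : ℝ) < D := by exact_mod_cast hD
  have hform := main_formula hD h
  rw [sum_split D hD] at hform
  have atop := aK_top hD
  have gtop : G (tau D (2 * D - 1)) = G (- tau D 0) := by
    have h1 := tau_reflect (D := D) (k := 0) (by omega)
    rw [Nat.sub_zero] at h1
    rw [h1, show 2 * π - tau D 0 = - tau D 0 + 2 * π by ring]
    exact h.2.2.2.2 _
  have hsgn : (-1 : ℝ) ^ (2 * D - 1) = -1 := by
    have e : 2 * D - 1 = 2 * (D - 1) + 1 := by omega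
    rw [e, pow_succ, pow_mul]
    simp
  set MidA : ℝ := ∑ k ∈ range (2 * D - 2), aK D (k + 1) * (-1) ^ (k + 1) with hMidA
  set MidC : ℝ := ∑ k ∈ range (2 * D - 2), cK D (k + 1) * (-1) ^ (k + 1) with hMidC
  have hmid1 : ∑ k ∈ range (2 * D - 2), aK D (k + 1) * G (tau D (k + 1)) ≤ MidA := by
    apply Finset.sum_le_sum
    intro k hk
    have hk' := Finset.mem_range.mp hk
    have hs := (aK_sign (D := D) (k := k + 1) (by omega) (by omega)).1
    have hg := abs_le.mp (hb (tau D (k + 1)))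
    have hP := neg_one_pow_mul_self (k + 1)
    have hP2 : (-1 : ℝ) ^ (k + 1) = 1 ∨ (-1 : ℝ) ^ (k + 1) = -1 := neg_one_pow_eq_or ℝ (k + 1)
    rcases hP2 with hP2 | hP2
    · rw [hP2] at hs ⊢
      nlinarith
    · rw [hP2] at hs ⊢
      nlinarith
  have hmid2 : MidA ≤ MidC := by
    apply Finset.sum_le_sum
    intro k hk
    have hk' := Finset.mem_range.mp hk
    have hs := (aK_sign (D := D) (k := k + 1) (by omega) (by omega)).2
    linarith
  have hmassA := mass_a hD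
  rw [sum_split D hD] at hmassA
  have hmassC := mass_c hD
  rw [sum_split D hD] at hmassC
  rw [← hMidA, atop, hsgn] at hmassA
  rw [← hMidC, hsgn] at hmassC
  have hc0 := cK_zero_lower hD
  have hctop : cK D (2 * D - 1) = - cK D 0 := by
    have h1 := cK_reflect (D := D) (k := 0) (by omega)
    rwa [Nat.sub_zero] at h1
  rw [hctop] at hmassC
  simp only [pow_zero, mul_one] at hmassA hmassC
  have ha0 : (3 / 10 : ℝ) * D ≤ aK D 0 := by linarith
  have hu := abs_le.mp (hb (tau D 0))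
  have hv := abs_le.mp (hb (- tau D 0))
  set u := G (tau D 0) with hu'
  set v := G (- tau D 0) with hv'
  rw [atop, gtop] at hform
  -- the correction terms
  have hγ : (1 / (10 * (D : ℝ))) * (2 * (D : ℝ) ^ 2) = D / 5 := by
    field_simp
    ring
  have hγpos : 0 < 1 / (10 * (D : ℝ)) := by positivity
  have h2' := abs_le.mp h2
  have h3' := abs_le.mp h3
  have hcorr : - ((D : ℝ) / 5 * ((1 - u ^ 2) + (1 - v ^ 2))) ≤
      (1 / (10 * (D : ℝ))) * (G2 (tau D 0) - G2 (- tau D 0)) := by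
    have e : (D : ℝ) / 5 * ((1 - u ^ 2) + (1 - v ^ 2)) =
        (1 / (10 * (D : ℝ))) * (2 * (D : ℝ) ^ 2 * (1 - u ^ 2) + 2 * (D : ℝ) ^ 2 * (1 - v ^ 2)) := by
      rw [← hγ]
      ring
    rw [e, ← mul_neg]
    apply mul_le_mul_of_nonneg_left _ hγpos.le
    linarith [h2'.2, h3'.1]
  have hup : G1 0 ≤ aK D 0 * (u - v - 2) + 4 * D / 5 + (D : ℝ) / 5 * ((1 - u ^ 2) + (1 - v ^ 2)) := by
    have : aK D 0 * u + ∑ k ∈ range (2 * D - 2), aK D (k + 1) * G (tau D (k + 1)) + - aK D 0 * v =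
        G1 0 + (1 / (10 * (D : ℝ))) * (G2 (tau D 0) - G2 (- tau D 0)) := hform
    nlinarith
  have hfin : aK D 0 * (u - v - 2) ≤ (3 / 10 : ℝ) * D * (u - v - 2) := by
    apply mul_le_mul_of_nonpos_right ha0
    linarith [hu.2, hv.1]
  have hsq : (u - 3 / 4) ^ 2 ≥ 0 := sq_nonneg _
  have hsq2 : (v + 3 / 4) ^ 2 ≥ 0 := sq_nonneg _
  have hDn : (0 : ℝ) ≤ D := hD'.le
  nlinarith [mul_nonneg hDn hsq, mul_nonneg hDn hsq2]

end Vale.Agent.Lib.P047h
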