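import Vale.Agent.Lib.P047h.Estimate
import Vale.Agent.Lib.P047h.Biased

/-!
From the bounds on the derivatives of a polynomial to the bound on its derivative at the origin.
-/

namespace Vale.Agent.Lib.P047h

open Finset Real

/-- the numerical condition on the evaluation point -/
lemma point_condition {D : ℕ} (hD : 3 ≤ D) :
    sin (tau D 0) + 2 * D * sin (tau D 0) ^ 2 ≤ 2 := by
  have hD0 : (0 : ℝ) < D := by
    have : 0 < D := by omega
    exact_mod_cast this
  have e : tau D 0 = π / (2 * D) := by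
    unfold tau
    simp
  rcases Nat.eq_or_lt_of_le hD with h | h
  · subst h
    rw [e]
    have : π / (2 * ((3 : ℕ) : ℝ)) = π / 6 := by
      push_cast
      ring
    rw [this, sin_pi_div_six]
    norm_num
  · have hD4 : (4 : ℝ) ≤ D := by
      have : 4 ≤ D := by omega
      exact_mod_cast this
    rw [e]
    have hx : 0 < π / (2 * (D : ℝ)) := by positivity
    have hs1 : sin (π / (2 * (D : ℝ))) ≤ π / (2 * D) := sin_le hx.le
    have hs0 : 0 ≤ sin (π / (2 * (D : ℝ))) := by
      apply sin_nonneg_of_nonneg_of_le_pi hx.le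
      rw [div_le_iff₀ (by positivity)]
      nlinarith [pi_pos]
    have hs2 : sin (π / (2 * (D : ℝ))) ^ 2 ≤ (π / (2 * D)) ^ 2 := pow_le_pow_left₀ hs0 hs1 2
    have h3 : 2 * (D : ℝ) * (π / (2 * D)) ^ 2 = π ^ 2 / (2 * D) := by
      field_simp
    have h4 : 2 * (D : ℝ) * sin (π / (2 * (D : ℝ))) ^ 2 ≤ π ^ 2 / (2 * D) := by
      rw [← h3]
      exact mul_le_mul_of_nonneg_left hs2 (by positivity)
    have hpi1 := pi_lt_d2
    have hpi0 := pi_pos
    have hpi2 : π ^ 2 ≤ 10 := by nlinarith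
    have h5 : π / (2 * (D : ℝ)) + π ^ 2 / (2 * D) ≤ 2 := by
      rw [← add_div, div_le_iff₀ (by positivity)]
      nlinarith
    linarith

/-- The second derivative along the sine substitution is controlled at the two points. -/
lemma second_bound_at {D : ℕ} (hD : 3 ≤ D) {P : Polynomial ℝ} {θ : ℝ}
    (hθ : |sin θ| = sin (tau D 0))
    (hc : 0 < cos θ ^ 2)
    (hV : 0 ≤ 1 - (P.eval (sin θ)) ^ 2)
    (h1 : (1 - sin θ ^ 2) * |(Polynomial.derivative P).eval (sin θ)| ≤
      D * (1 - (P.eval (sin θ)) ^ 2))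
    (h2 : (1 - sin θ ^ 2) ^ 2 * |(Polynomial.derivative (Polynomial.derivative P)).eval (sin θ)| ≤
      2 * (D * (D - 1)) * (1 - (P.eval (sin θ)) ^ 2)) :
    |(Polynomial.derivative (Polynomial.derivative P)).eval (sin θ) * cos θ * cos θ +
        (Polynomial.derivative P).eval (sin θ) * (- sin θ)| ≤
      2 * (D : ℝ) ^ 2 * (1 - (P.eval (sin θ)) ^ 2) := by
  have hD0 : (0 : ℝ) < D := by
    have : 0 < D := by omega
    exact_mod_cast this
  set ε := sin θ with hε
  set A := (Polynomial.derivative P).eval ε with hA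
  set B := (Polynomial.derivative (Polynomial.derivative P)).eval ε with hB
  set V := 1 - (P.eval ε) ^ 2 with hVdef
  have ht : cos θ ^ 2 = 1 - ε ^ 2 := by
    rw [hε, cos_sq']
  set t := 1 - ε ^ 2 with htdef
  have htpos : 0 < t := by rw [← ht]; exact hc
  have hpc := point_condition hD
  have hεsq : ε ^ 2 = sin (tau D 0) ^ 2 := by
    rw [← hθ, sq_abs]
  have hmain : t * |B * cos θ * cos θ + A * (-ε)| ≤ t * (2 * (D : ℝ) ^ 2 * V) := by
    have e1 : B * cos θ * cos θ + A * (-ε) = B * t + A * (-ε) := by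
      rw [← ht]
      ring
    rw [e1]
    have h3 : |B * t + A * (-ε)| ≤ |B| * t + |A| * |ε| := by
      calc |B * t + A * (-ε)| ≤ |B * t| + |A * (-ε)| := abs_add_le _ _
        _ = |B| * t + |A| * |ε| := by
          rw [abs_mul, abs_mul, abs_neg, abs_of_pos htpos]
    have h4 : t * (|B| * t + |A| * |ε|) = t ^ 2 * |B| + |ε| * (t * |A|) := by ring
    have h5 : |ε| * (t * |A|) ≤ |ε| * (D * V) :=
      mul_le_mul_of_nonneg_left h1 (abs_nonneg _)
    have h6 : t * (2 * (D : ℝ) ^ 2 * V) - (2 * (D * (D - 1)) * V + |ε| * (D * V)) =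
        (D : ℝ) * V * (2 - (|ε| + 2 * D * ε ^ 2)) := by
      rw [htdef]
      ring
    have h7 : 0 ≤ (D : ℝ) * V * (2 - (|ε| + 2 * D * ε ^ 2)) := by
      apply mul_nonneg (mul_nonneg hD0.le hV)
      rw [hθ, hεsq]
      linarith
    calc t * |B * t + A * (-ε)| ≤ t * (|B| * t + |A| * |ε|) :=
          mul_le_mul_of_nonneg_left h3 htpos.le
      _ = t ^ 2 * |B| + |ε| * (t * |A|) := h4
      _ ≤ 2 * (D * (D - 1)) * V + |ε| * (D * V) := add_le_add h2 h5
      _ ≤ t * (2 * (D : ℝ) ^ 2 * V) := by linarith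
  exact le_of_mul_le_mul_left hmain htpos

/-- The polynomial form of the main bound. -/
theorem poly_bound {D : ℕ} (hD : 3 ≤ D) {P : Polynomial ℝ} (hP : P.natDegree ≤ D)
    (hb : ∀ x : ℝ, -1 ≤ x → x ≤ 1 → (P.eval x) ^ 2 ≤ 1)
    (h1 : ∀ x : ℝ, -1 ≤ x → x ≤ 1 → (1 - x ^ 2) * |(Polynomial.derivative P).eval x| ≤
      D * (1 - (P.eval x) ^ 2))
    (h2 : ∀ x : ℝ, -1 ≤ x → x ≤ 1 →
      (1 - x ^ 2) ^ 2 * |(Polynomial.derivative (Polynomial.derivative P)).eval x| ≤
      2 * (D * (D - 1)) * (1 - (P.eval x) ^ 2)) :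
    (Polynomial.derivative P).eval 0 ≤ (33 / 40) * D := by
  have hD0 : 0 < D := by omega
  have hD0' : (0 : ℝ) < D := by exact_mod_cast hD0
  obtain ⟨G1, G2, hg⟩ := exists_goodData hD0 (poly_sin_mem hP)
  have hd1 : ∀ θ : ℝ, HasDerivAt (fun θ : ℝ => P.eval (sin θ))
      ((Polynomial.derivative P).eval (sin θ) * cos θ) θ := fun θ =>
    (P.hasDerivAt (sin θ)).comp θ (hasDerivAt_sin θ)
  have hG1 : G1 = fun θ => (Polynomial.derivative P).eval (sin θ) * cos θ := by
    funext θ
    exact (hg.1 θ).unique (hd1 θ)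
  have hd2 : ∀ θ : ℝ, HasDerivAt (fun θ : ℝ => (Polynomial.derivative P).eval (sin θ) * cos θ)
      ((Polynomial.derivative (Polynomial.derivative P)).eval (sin θ) * cos θ * cos θ +
        (Polynomial.derivative P).eval (sin θ) * (- sin θ)) θ := fun θ =>
    (((Polynomial.derivative P).hasDerivAt (sin θ)).comp θ (hasDerivAt_sin θ)).mul (hasDerivAt_cos θ)
  have hG2 : G2 = fun θ => (Polynomial.derivative (Polynomial.derivative P)).eval (sin θ) * cos θ * cos θ +
        (Polynomial.derivative P).eval (sin θ) * (- sin θ) := by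
    funext θ
    have h3 := hg.2.1 θ
    rw [hG1] at h3
    exact h3.unique (hd2 θ)
  have hrange : ∀ θ : ℝ, -1 ≤ sin θ ∧ sin θ ≤ 1 := fun θ => ⟨neg_one_le_sin θ, sin_le_one θ⟩
  have hbound : ∀ θ : ℝ, |P.eval (sin θ)| ≤ 1 := by
    intro θ
    have := hb (sin θ) (hrange θ).1 (hrange θ).2
    exact abs_le_one_iff_mul_self_le_one.mpr (by nlinarith)
  have hV : ∀ θ : ℝ, 0 ≤ 1 - (P.eval (sin θ)) ^ 2 := fun θ => by
    have := hb (sin θ) (hrange θ).1 (hrange θ).2
    linarith
  -- positivity of `cos` at the node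
  have hτ : tau D 0 = π / (2 * D) := by
    unfold tau
    simp
  have hτ0 : 0 < tau D 0 := by
    rw [hτ]
    positivity
  have hτ1 : tau D 0 < π / 2 := by
    rw [hτ]
    apply div_lt_div_of_pos_left pi_pos (by norm_num)
    have : (3 : ℝ) ≤ D := by exact_mod_cast hD
    linarith
  have hcos : 0 < cos (tau D 0) := cos_pos_of_mem_Ioo ⟨by linarith, hτ1⟩
  have hsin : 0 < sin (tau D 0) := sin_pos_of_pos_of_lt_pi hτ0 (by linarith [pi_pos])
  have hA := second_bound_at hD (P := P) (θ := tau D 0) (abs_of_pos hsin)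
    (by positivity) (hV _) (h1 _ (hrange _).1 (hrange _).2) (h2 _ (hrange _).1 (hrange _).2)
  have hB := second_bound_at hD (P := P) (θ := - tau D 0) (by rw [sin_neg, abs_neg, abs_of_pos hsin])
    (by rw [cos_neg]; positivity) (hV _) (h1 _ (hrange _).1 (hrange _).2)
    (h2 _ (hrange _).1 (hrange _).2)
  have hfin := final_estimate hD0 hg hbound (by rw [hG2]; exact hA) (by rw [hG2]; exact hB)
  rw [hG1] at hfin
  simpa using hfin

section Boolean

variable {n : ℕ}

lemma natDegree_polyOf {c : Finset (Fin n) → ℝ} {d : ℕ}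
    (hdeg : ∀ S : Finset (Fin n), d < S.card → c S = 0) : (polyOf c).natDegree ≤ d := by
  unfold polyOf
  apply Polynomial.natDegree_sum_le_of_forall_le
  intro T _
  by_cases hT : d < T.card
  · rw [hdeg T hT]
    simp
  · calc (Polynomial.C (c T) * Polynomial.X ^ T.card).natDegree ≤ T.card :=
          Polynomial.natDegree_C_mul_X_pow_le _ _
      _ ≤ d := not_lt.mp hT

lemma derivative_polyOf_zero (c : Finset (Fin n) → ℝ) :
    (Polynomial.derivative (polyOf c)).eval 0 = ∑ i, c {i} := by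
  rw [eval_derivative_polyOf]
  apply Finset.sum_congr rfl
  intro i _
  unfold bcoef
  rw [Finset.sum_eq_single ({i} : Finset (Fin n))]
  · simp
  · intro T hT hne
    have hT' : ({i} : Finset (Fin n)) ⊆ T := (Finset.mem_filter.mp hT).2
    have hcard : ({i} : Finset (Fin n)).card < T.card :=
      Finset.card_lt_card (Finset.ssubset_iff_subset_ne.mpr ⟨hT', fun h => hne h.symm⟩)
    rw [zero_pow (by omega), mul_zero]
  · intro h
    exact absurd (Finset.mem_filter.mpr ⟨Finset.mem_univ _, Finset.Subset.refl _⟩) h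

/-- The main theorem: the total degree-one weight of a Boolean function of degree `d ≥ 3`
is at most `(33/40) d`. -/
theorem level_one_bound (d : ℕ) (hd : 3 ≤ d) (f : (Fin n → Bool) → ℝ)
    (hf : ∀ x, f x = 1 ∨ f x = -1)
    (hdeg : ∀ S : Finset (Fin n), d < S.card → fourierCoeff f S = 0) :
    ∑ i, fourierCoeff f {i} ≤ (33 / 40) * d := by
  rw [← derivative_polyOf_zero]
  apply poly_bound hd (natDegree_polyOf hdeg)
  · intro x h1 h2
    exact (biased_bounds f hf hdeg h1 h2).1
  · intro x h1 h2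
    exact (biased_bounds f hf hdeg h1 h2).2.1
  · intro x h1 h2
    exact (biased_bounds f hf hdeg h1 h2).2.2

end Boolean

end Vale.Agent.Lib.P047h
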