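import Vale.Agent.Lib.P047h.Trig

/-!
Trigonometric polynomials: the span of `cos (j θ)`, `sin (j θ)` and the interpolation package.
-/

namespace Vale.Agent.Lib.P047h

open Finset Real

/-- the real span of `cos (j θ)`, `sin (j θ)` with `j ≤ D` -/
def tpSpan (D : ℕ) : Submodule ℝ (ℝ → ℝ) :=
  Submodule.span ℝ ({g | ∃ j ≤ D, g = fun θ => cos (j * θ)} ∪ {g | ∃ j ≤ D, g = fun θ => sin (j * θ)})

lemma cos_mem {D j : ℕ} (hj : j ≤ D) : (fun θ : ℝ => cos (j * θ)) ∈ tpSpan D :=
  Submodule.subset_span (Or.inl ⟨j, hj, rfl⟩)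

lemma sin_mem {D j : ℕ} (hj : j ≤ D) : (fun θ : ℝ => sin (j * θ)) ∈ tpSpan D :=
  Submodule.subset_span (Or.inr ⟨j, hj, rfl⟩)

lemma tpSpan_mono {D D' : ℕ} (h : D ≤ D') : tpSpan D ≤ tpSpan D' := by
  apply Submodule.span_mono
  rintro g (⟨j, hj, rfl⟩ | ⟨j, hj, rfl⟩)
  · exact Or.inl ⟨j, hj.trans h, rfl⟩
  · exact Or.inr ⟨j, hj.trans h, rfl⟩

/-- multiplication by `sin` raises the degree by one. -/
lemma sin_mul_mem {D : ℕ} {G : ℝ → ℝ} (hG : G ∈ tpSpan D) :
    (fun θ => sin θ * G θ) ∈ tpSpan (D + 1) := by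
  induction hG using Submodule.span_induction with
  | mem g hg =>
    rcases hg with ⟨j, hj, rfl⟩ | ⟨j, hj, rfl⟩
    · -- cosine generator
      rcases Nat.eq_zero_or_pos j with rfl | hj0
      · have : (fun θ : ℝ => sin θ * cos (((0 : ℕ) : ℝ) * θ)) = fun θ => sin (((1 : ℕ) : ℝ) * θ) := by
          funext θ
          simp
        rw [this]
        exact sin_mem (by omega)
      · have : (fun θ : ℝ => sin θ * cos ((j : ℝ) * θ)) =
            (1 / 2 : ℝ) • (fun θ => sin (((j + 1 : ℕ) : ℝ) * θ)) +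
            (-1 / 2 : ℝ) • (fun θ => sin (((j - 1 : ℕ) : ℝ) * θ)) := by
          funext θ
          simp only [Pi.add_apply, Pi.smul_apply, smul_eq_mul]
          have e1 : ((j + 1 : ℕ) : ℝ) * θ = j * θ + θ := by push_cast; ring
          have e2 : ((j - 1 : ℕ) : ℝ) * θ = j * θ - θ := by
            rw [Nat.cast_sub hj0]
            push_cast
            ring
          rw [e1, e2, sin_add, sin_sub]
          ring
        rw [this]
        exact Submodule.add_mem _ (Submodule.smul_mem _ _ (sin_mem (by omega)))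
          (Submodule.smul_mem _ _ (sin_mem (by omega)))
    · rcases Nat.eq_zero_or_pos j with rfl | hj0
      · have : (fun θ : ℝ => sin θ * sin (((0 : ℕ) : ℝ) * θ)) = 0 := by
          funext θ
          simp
        rw [this]
        exact Submodule.zero_mem _
      · have : (fun θ : ℝ => sin θ * sin ((j : ℝ) * θ)) =
            (1 / 2 : ℝ) • (fun θ => cos (((j - 1 : ℕ) : ℝ) * θ)) +
            (-1 / 2 : ℝ) • (fun θ => cos (((j + 1 : ℕ) : ℝ) * θ)) := by
          funext θ
          simp only [Pi.add_apply, Pi.smul_apply, smul_eq_mul]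
          have e1 : ((j + 1 : ℕ) : ℝ) * θ = j * θ + θ := by push_cast; ring
          have e2 : ((j - 1 : ℕ) : ℝ) * θ = j * θ - θ := by
            rw [Nat.cast_sub hj0]
            push_cast
            ring
          rw [e1, e2, cos_add, cos_sub]
          ring
        rw [this]
        exact Submodule.add_mem _ (Submodule.smul_mem _ _ (cos_mem (by omega)))
          (Submodule.smul_mem _ _ (cos_mem (by omega)))
  | zero =>
    have : (fun θ : ℝ => sin θ * (0 : ℝ → ℝ) θ) = 0 := by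
      funext θ
      simp
    rw [this]
    exact Submodule.zero_mem _
  | add x y _ _ hx hy =>
    have : (fun θ : ℝ => sin θ * (x + y) θ) = (fun θ => sin θ * x θ) + (fun θ => sin θ * y θ) := by
      funext θ
      simp [mul_add]
    rw [this]
    exact Submodule.add_mem _ hx hy
  | smul a x _ hx =>
    have : (fun θ : ℝ => sin θ * (a • x) θ) = a • (fun θ => sin θ * x θ) := by
      funext θ
      simp only [Pi.smul_apply, smul_eq_mul]
      ring
    rw [this]
    exact Submodule.smul_mem _ _ hx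

lemma sin_pow_mem (m : ℕ) : (fun θ : ℝ => sin θ ^ m) ∈ tpSpan m := by
  induction m with
  | zero =>
    have : (fun θ : ℝ => sin θ ^ 0) = fun θ => cos (((0 : ℕ) : ℝ) * θ) := by
      funext θ
      simp
    rw [this]
    exact cos_mem le_rfl
  | succ m ih =>
    have : (fun θ : ℝ => sin θ ^ (m + 1)) = fun θ => sin θ * sin θ ^ m := by
      funext θ
      ring
    rw [this]
    exact sin_mul_mem ih

/-- polynomials in `sin` are trigonometric polynomials. -/
lemma poly_sin_mem {D : ℕ} {P : Polynomial ℝ} (hP : P.natDegree ≤ D) :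
    (fun θ : ℝ => P.eval (sin θ)) ∈ tpSpan D := by
  have : (fun θ : ℝ => P.eval (sin θ)) =
      ∑ i ∈ range (D + 1), (P.coeff i) • (fun θ : ℝ => sin θ ^ i) := by
    funext θ
    rw [Polynomial.eval_eq_sum_range' (Nat.lt_succ_of_le hP)]
    simp [Finset.sum_apply]
  rw [this]
  apply Submodule.sum_mem
  intro i hi
  apply Submodule.smul_mem
  exact tpSpan_mono (by have := Finset.mem_range.mp hi; omega) (sin_pow_mem i)

/-- the interpolation package for a function `G` with derivative `G1` and second derivative `G2` -/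
def GoodData (D : ℕ) (G G1 G2 : ℝ → ℝ) : Prop :=
  (∀ θ, HasDerivAt G (G1 θ) θ) ∧ (∀ θ, HasDerivAt G1 (G2 θ) θ) ∧
    (∑ k ∈ range (2 * D), cK D k * G (tau D k) = G1 0) ∧
    (∀ θ, ∑ l ∈ range (2 * D), eL D l * G (θ + l * (π / D)) = G2 θ) ∧
    (∀ θ, G (θ + 2 * π) = G θ)

lemma hasDerivAt_cos_mul (c θ : ℝ) : HasDerivAt (fun θ => cos (c * θ)) (- c * sin (c * θ)) θ := by
  have h : HasDerivAt (fun y : ℝ => c * y) c θ := by
    simpa using (hasDerivAt_id θ).const_mul c
  exact (HasDerivAt.cos h).congr_deriv (by ring)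

lemma hasDerivAt_sin_mul (c θ : ℝ) : HasDerivAt (fun θ => sin (c * θ)) (c * cos (c * θ)) θ := by
  have h : HasDerivAt (fun y : ℝ => c * y) c θ := by
    simpa using (hasDerivAt_id θ).const_mul c
  exact (HasDerivAt.sin h).congr_deriv (by ring)

lemma goodData_cos {D j : ℕ} (hD : 0 < D) (hj : j ≤ D) :
    GoodData D (fun θ => cos (j * θ)) (fun θ => - j * sin (j * θ))
      (fun θ => - (j : ℝ) ^ 2 * cos (j * θ)) := by
  have hD' : (D : ℝ) ≠ 0 := by exact_mod_cast hD.ne'
  refine ⟨fun θ => hasDerivAt_cos_mul _ θ, fun θ => ?_, ?_, fun θ => ?_, fun θ => ?_⟩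
  · have := (hasDerivAt_sin_mul (j : ℝ) θ).const_mul (- (j : ℝ))
    exact this.congr_deriv (by ring)
  · simp only [mul_zero, sin_zero]
    rw [rieszC_eq]
  · have h1 := eCos_eq hD hj
    have h2 := eSin_eq hD j
    unfold eCos at h1
    unfold eSin at h2
    have h3 : ∀ l ∈ range (2 * D), eL D l * cos (j * (θ + l * (π / D))) =
        cos (j * θ) * (eL D l * cos (j * (l * (π / D)))) -
        sin (j * θ) * (eL D l * sin (j * (l * (π / D)))) := by
      intro l _
      rw [mul_add, cos_add]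
      ring
    rw [Finset.sum_congr rfl h3, Finset.sum_sub_distrib, ← Finset.mul_sum, ← Finset.mul_sum, h1, h2]
    ring
  · have : (j : ℝ) * (θ + 2 * π) = j * θ + j * (2 * π) := by ring
    show cos ((j : ℝ) * (θ + 2 * π)) = cos (j * θ)
    rw [this, cos_add_nat_mul_two_pi]

lemma goodData_sin {D j : ℕ} (hD : 0 < D) (hj : j ≤ D) :
    GoodData D (fun θ => sin (j * θ)) (fun θ => j * cos (j * θ))
      (fun θ => - (j : ℝ) ^ 2 * sin (j * θ)) := by
  have hD' : (D : ℝ) ≠ 0 := by exact_mod_cast hD.ne'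
  refine ⟨fun θ => hasDerivAt_sin_mul _ θ, fun θ => ?_, ?_, fun θ => ?_, fun θ => ?_⟩
  · have := (hasDerivAt_cos_mul (j : ℝ) θ).const_mul (j : ℝ)
    exact this.congr_deriv (by ring)
  · simp only [mul_zero, cos_zero, mul_one]
    exact rieszS_eq hj
  · have h1 := eCos_eq hD hj
    have h2 := eSin_eq hD j
    unfold eCos at h1
    unfold eSin at h2
    have h3 : ∀ l ∈ range (2 * D), eL D l * sin (j * (θ + l * (π / D))) =
        sin (j * θ) * (eL D l * cos (j * (l * (π / D)))) +
        cos (j * θ) * (eL D l * sin (j * (l * (π / D)))) := by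
      intro l _
      rw [mul_add, sin_add]
      ring
    rw [Finset.sum_congr rfl h3, Finset.sum_add_distrib, ← Finset.mul_sum, ← Finset.mul_sum, h1, h2]
    ring
  · have : (j : ℝ) * (θ + 2 * π) = j * θ + j * (2 * π) := by ring
    show sin ((j : ℝ) * (θ + 2 * π)) = sin (j * θ)
    rw [this, sin_add_nat_mul_two_pi]

lemma goodData_add {D : ℕ} {G G1 G2 H H1 H2 : ℝ → ℝ} (hG : GoodData D G G1 G2)
    (hH : GoodData D H H1 H2) : GoodData D (G + H) (G1 + H1) (G2 + H2) := by
  obtain ⟨a1, a2, a3, a4, a5⟩ := hG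
  obtain ⟨b1, b2, b3, b4, b5⟩ := hH
  refine ⟨fun θ => (a1 θ).add (b1 θ), fun θ => (a2 θ).add (b2 θ), ?_, fun θ => ?_, fun θ => ?_⟩
  · simp only [Pi.add_apply, mul_add]
    rw [Finset.sum_add_distrib, a3, b3]
  · simp only [Pi.add_apply, mul_add]
    rw [Finset.sum_add_distrib, a4, b4]
  · simp only [Pi.add_apply, a5, b5]

lemma goodData_smul {D : ℕ} {G G1 G2 : ℝ → ℝ} (a : ℝ) (hG : GoodData D G G1 G2) :
    GoodData D (a • G) (a • G1) (a • G2) := by
  obtain ⟨a1, a2, a3, a4, a5⟩ := hG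
  refine ⟨fun θ => (a1 θ).const_mul a, fun θ => (a2 θ).const_mul a, ?_, fun θ => ?_, fun θ => ?_⟩
  · simp only [Pi.smul_apply, smul_eq_mul]
    rw [← a3, Finset.mul_sum]
    apply Finset.sum_congr rfl
    intro k _
    ring
  · simp only [Pi.smul_apply, smul_eq_mul]
    rw [← a4, Finset.mul_sum]
    apply Finset.sum_congr rfl
    intro k _
    ring
  · simp only [Pi.smul_apply, smul_eq_mul, a5]

lemma goodData_zero (D : ℕ) : GoodData D 0 0 0 := by
  refine ⟨fun θ => hasDerivAt_const θ (0 : ℝ), fun θ => hasDerivAt_const θ (0 : ℝ), ?_, fun θ => ?_,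
    fun θ => rfl⟩ <;> simp

/-- every trigonometric polynomial of degree at most `D` has the interpolation package -/
lemma exists_goodData {D : ℕ} (hD : 0 < D) {G : ℝ → ℝ} (hG : G ∈ tpSpan D) :
    ∃ G1 G2, GoodData D G G1 G2 := by
  induction hG using Submodule.span_induction with
  | mem g hg =>
    rcases hg with ⟨j, hj, rfl⟩ | ⟨j, hj, rfl⟩
    · exact ⟨_, _, goodData_cos hD hj⟩
    · exact ⟨_, _, goodData_sin hD hj⟩
  | zero => exact ⟨0, 0, goodData_zero D⟩
  | add x y _ _ hx hy =>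
    obtain ⟨a, b, h⟩ := hx
    obtain ⟨c, d, h'⟩ := hy
    exact ⟨_, _, goodData_add h h'⟩
  | smul a x _ hx =>
    obtain ⟨b, c, h⟩ := hx
    exact ⟨_, _, goodData_smul a h⟩

end Vale.Agent.Lib.P047h
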