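import Mathlib

/-!
Trigonometric interpolation identities (of M. Riesz type).
-/

namespace Vale.Agent.Lib.P047h

open Finset Real

/-- arithmetic progression cosine sums vanish -/
lemma sum_cos_arith (N : ℕ) (a b : ℝ) (hb : sin (b / 2) ≠ 0) (hN : ∃ m : ℤ, (N : ℝ) * b = 2 * π * m) :
    ∑ k ∈ range N, cos (a + k * b) = 0 := by
  have h1 : ∀ k : ℕ, 2 * sin (b / 2) * cos (a + k * b) =
      sin (a + ((k + 1 : ℕ) - 1 / 2) * b) - sin (a + ((k : ℝ) - 1 / 2) * b) := by
    intro k
    have e1 : a + (((k + 1 : ℕ) : ℝ) - 1 / 2) * b = (a + k * b) + b / 2 := by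
      push_cast
      ring
    have e2 : a + ((k : ℝ) - 1 / 2) * b = (a + k * b) - b / 2 := by ring
    rw [e1, e2, sin_add, sin_sub]
    ring
  have h2 : 2 * sin (b / 2) * ∑ k ∈ range N, cos (a + k * b) =
      sin (a + ((N : ℝ) - 1 / 2) * b) - sin (a + (((0 : ℕ) : ℝ) - 1 / 2) * b) := by
    rw [Finset.mul_sum]
    simp_rw [h1]
    exact Finset.sum_range_sub (fun k : ℕ => sin (a + ((k : ℝ) - 1 / 2) * b)) N
  obtain ⟨m, hm⟩ := hN
  have h3 : sin (a + ((N : ℝ) - 1 / 2) * b) = sin (a + (((0 : ℕ) : ℝ) - 1 / 2) * b) := by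
    have : a + ((N : ℝ) - 1 / 2) * b = (a + (((0 : ℕ) : ℝ) - 1 / 2) * b) + m * (2 * π) := by
      push_cast
      linarith [hm, mul_comm (m : ℝ) (2 * π)]
    rw [this, sin_add_int_mul_two_pi]
  rw [h3, sub_self] at h2
  have h4 : (2 * sin (b / 2)) ≠ 0 := mul_ne_zero two_ne_zero hb
  exact (mul_eq_zero.mp h2).resolve_left h4

lemma sum_sin_arith (N : ℕ) (a b : ℝ) (hb : sin (b / 2) ≠ 0) (hN : ∃ m : ℤ, (N : ℝ) * b = 2 * π * m) :
    ∑ k ∈ range N, sin (a + k * b) = 0 := by
  have := sum_cos_arith N (a - π / 2) b hb hN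
  rw [← this]
  apply Finset.sum_congr rfl
  intro k _
  rw [show a - π / 2 + k * b = (a + k * b) - π / 2 by ring, cos_sub_pi_div_two]

/-- sine of a multiple of `π/(2D)` strictly inside is nonzero -/
lemma sin_mul_ne_zero {D m : ℕ} (hm : 0 < m) (hm2 : m < 2 * D) :
    sin ((m : ℝ) * π / (2 * D)) ≠ 0 := by
  have hD : (0 : ℝ) < D := by
    have : 0 < D := by omega
    exact_mod_cast this
  apply ne_of_gt
  apply sin_pos_of_pos_of_lt_pi
  · have : (0 : ℝ) < m := by exact_mod_cast hm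
    positivity
  · rw [div_lt_iff₀ (by positivity)]
    have : (m : ℝ) < 2 * D := by exact_mod_cast hm2
    nlinarith [pi_pos]

/-- the nodes `(2k+1)π/(2D)` -/
noncomputable def tau (D k : ℕ) : ℝ := (2 * k + 1) * π / (2 * D)

lemma tau_succ {D : ℕ} (hD : 0 < D) (k : ℕ) : tau D k = tau D 0 + k * (π / D) := by
  have : (D : ℝ) ≠ 0 := by
    exact_mod_cast hD.ne'
  unfold tau
  field_simp
  push_cast
  ring

/-- cos sums at multiples of the nodes. -/
lemma sum_cos_tau {D m : ℕ} (hm : 0 < m) (hm2 : m < 2 * D) :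
    ∑ k ∈ range (2 * D), cos (m * tau D k) = 0 := by
  have hD : 0 < D := by omega
  have hD' : (D : ℝ) ≠ 0 := by exact_mod_cast hD.ne'
  have h := sum_cos_arith (2 * D) (m * tau D 0) (m * (π / D)) (by
      have := sin_mul_ne_zero hm hm2
      convert this using 2
      field_simp) ⟨m, by push_cast; field_simp⟩
  rw [← h]
  apply Finset.sum_congr rfl
  intro k _
  rw [tau_succ hD k]
  congr 1
  ring

lemma sin_D_tau {D : ℕ} (hD : 0 < D) (k : ℕ) : sin (D * tau D k) = (-1) ^ k := by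
  have hD' : (D : ℝ) ≠ 0 := by exact_mod_cast hD.ne'
  have : (D : ℝ) * tau D k = π / 2 + k * π := by
    unfold tau
    field_simp
    ring
  rw [this, sin_add, sin_pi_div_two, cos_pi_div_two, zero_mul, add_zero, one_mul]
  exact cos_nat_mul_pi k

lemma cos_D_tau {D : ℕ} (hD : 0 < D) (k : ℕ) : cos (D * tau D k) = 0 := by
  have hD' : (D : ℝ) ≠ 0 := by exact_mod_cast hD.ne'
  have : (D : ℝ) * tau D k = π / 2 + k * π := by
    unfold tau
    field_simp
    ring
  rw [this, cos_add, cos_pi_div_two, sin_pi_div_two, zero_mul, one_mul, zero_sub]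
  rw [sin_nat_mul_pi, neg_zero]

/-- half-node sine -/
lemma sin_half_tau_ne {D k : ℕ} (hk : k < 2 * D) : sin (tau D k / 2) ≠ 0 := by
  have hD : 0 < D := by omega
  have hD' : (D : ℝ) ≠ 0 := by exact_mod_cast hD.ne'
  have h := sin_mul_ne_zero (D := 2 * D) (m := 2 * k + 1) (by omega) (by omega)
  convert h using 2
  unfold tau
  push_cast
  field_simp

lemma sin_half_tau_pos {D k : ℕ} (hk : k < 2 * D) : 0 < sin (tau D k / 2) := by
  have hD : 0 < D := by omega
  have hD' : (0 : ℝ) < D := by exact_mod_cast hD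
  apply sin_pos_of_pos_of_lt_pi
  · unfold tau
    positivity
  · unfold tau
    rw [div_div, div_lt_iff₀ (by positivity)]
    have : (2 * (k : ℝ) + 1) < 4 * D := by
      have : 2 * k + 1 < 4 * D := by omega
      exact_mod_cast this
    nlinarith [pi_pos]

/-- the Riesz weights -/
noncomputable def cK (D k : ℕ) : ℝ := (-1) ^ k / (4 * D * sin (tau D k / 2) ^ 2)

lemma cK_mul {D k : ℕ} (hk : k < 2 * D) :
    cK D k * (4 * sin (tau D k / 2) ^ 2) = (-1) ^ k / D := by
  have hD : 0 < D := by omega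
  have hD' : (D : ℝ) ≠ 0 := by exact_mod_cast hD.ne'
  have := sin_half_tau_ne hk
  unfold cK
  field_simp

/-- second difference of sines -/
lemma sin_second_diff (j : ℕ) (θ : ℝ) :
    sin ((j + 1 : ℕ) * θ) + sin ((j - 1 : ℕ) * θ) - 2 * sin (j * θ) =
      if j = 0 then sin θ else -(4 * sin (θ / 2) ^ 2 * sin (j * θ)) := by
  by_cases hj : j = 0
  · subst hj
    simp
  · rw [if_neg hj]
    have h1 : ((j + 1 : ℕ) : ℝ) * θ = j * θ + θ := by push_cast; ring
    have h2 : ((j - 1 : ℕ) : ℝ) * θ = j * θ - θ := by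
      rw [Nat.cast_sub (by omega)]
      push_cast
      ring
    have h3 : cos θ = 1 - 2 * sin (θ / 2) ^ 2 := by
      have := cos_sq' (θ / 2)
      have h4 : cos θ = 2 * cos (θ / 2) ^ 2 - 1 := by
        rw [← cos_two_mul]
        congr 1
        ring
      rw [h4, this]
      ring
    rw [h1, h2, sin_add, sin_sub, h3]
    ring

/-- The sine part of the Riesz functional. -/
noncomputable def rieszS (D j : ℕ) : ℝ := ∑ k ∈ range (2 * D), cK D k * sin (j * tau D k)

lemma rieszS_zero (D : ℕ) : rieszS D 0 = 0 := by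
  simp [rieszS]

/-- second difference of `rieszS` -/
lemma rieszS_diff {D j : ℕ} (hj : 0 < j) :
    rieszS D (j + 1) + rieszS D (j - 1) - 2 * rieszS D j =
      -(∑ k ∈ range (2 * D), (-1) ^ k * sin (j * tau D k)) / D := by
  have hD : D = 0 ∨ 0 < D := Nat.eq_zero_or_pos D
  rcases hD with hD | hD
  · subst hD
    simp [rieszS]
  unfold rieszS
  rw [Finset.mul_sum, ← Finset.sum_add_distrib, ← Finset.sum_sub_distrib, neg_div, Finset.sum_div,
    ← Finset.sum_neg_distrib]
  apply Finset.sum_congr rfl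
  intro k hk
  have hk' := Finset.mem_range.mp hk
  have h := sin_second_diff j (tau D k)
  rw [if_neg hj.ne'] at h
  have h2 := cK_mul hk'
  calc cK D k * sin ((j + 1 : ℕ) * tau D k) + cK D k * sin ((j - 1 : ℕ) * tau D k) -
        2 * (cK D k * sin (j * tau D k))
      = cK D k * (sin ((j + 1 : ℕ) * tau D k) + sin ((j - 1 : ℕ) * tau D k) -
        2 * sin (j * tau D k)) := by ring
    _ = -((cK D k * (4 * sin (tau D k / 2) ^ 2)) * sin (j * tau D k)) := by
        rw [h]
        ring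
    _ = _ := by
        rw [h2]
        ring

/-- The discrete orthogonality: the sum vanishes for `0 < j < D`. -/
lemma sum_alt_sin {D j : ℕ} (hj : 0 < j) (hjD : j < D) :
    ∑ k ∈ range (2 * D), (-1) ^ k * sin (j * tau D k) = 0 := by
  have hD : 0 < D := by omega
  have h1 : ∀ k : ℕ, (-1 : ℝ) ^ k * sin (j * tau D k) =
      (cos (((D - j : ℕ) : ℝ) * tau D k) - cos (((D + j : ℕ) : ℝ) * tau D k)) / 2 := by
    intro k
    rw [← sin_D_tau hD k]
    have e1 : ((D - j : ℕ) : ℝ) * tau D k = D * tau D k - j * tau D k := by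
      rw [Nat.cast_sub hjD.le]
      ring
    have e2 : ((D + j : ℕ) : ℝ) * tau D k = D * tau D k + j * tau D k := by
      push_cast
      ring
    rw [e1, e2, cos_sub, cos_add]
    ring
  simp_rw [h1]
  rw [← Finset.sum_div, Finset.sum_sub_distrib,
    sum_cos_tau (D := D) (m := D - j) (by omega) (by omega),
    sum_cos_tau (D := D) (m := D + j) (by omega) (by omega)]
  simp

/-- The top case. -/
lemma sum_alt_sin_top {D : ℕ} (hD : 0 < D) :
    ∑ k ∈ range (2 * D), (-1) ^ k * sin (D * tau D k) = 2 * D := by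
  have h1 : ∀ k : ℕ, (-1 : ℝ) ^ k * sin (D * tau D k) = 1 := by
    intro k
    rw [sin_D_tau hD k, ← mul_pow]
    simp
  simp_rw [h1]
  simp

lemma sin_succ_eq_pred {D : ℕ} (hD : 0 < D) (k : ℕ) :
    sin ((D + 1 : ℕ) * tau D k) = sin ((D - 1 : ℕ) * tau D k) := by
  have e1 : ((D + 1 : ℕ) : ℝ) * tau D k = D * tau D k + tau D k := by
    push_cast
    ring
  have e2 : ((D - 1 : ℕ) : ℝ) * tau D k = D * tau D k - tau D k := by
    rw [Nat.cast_sub hD]
    push_cast
    ring
  rw [e1, e2, sin_add, sin_sub, cos_D_tau hD k]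
  ring

lemma rieszS_top_diff {D : ℕ} (hD : 0 < D) : rieszS D D - rieszS D (D - 1) = 1 := by
  have h := rieszS_diff (D := D) (j := D) hD
  rw [sum_alt_sin_top hD] at h
  have h2 : rieszS D (D + 1) = rieszS D (D - 1) := by
    unfold rieszS
    apply Finset.sum_congr rfl
    intro k _
    rw [sin_succ_eq_pred hD k]
  rw [h2] at h
  have hD' : (D : ℝ) ≠ 0 := by exact_mod_cast hD.ne'
  have h3 : -(2 * (D : ℝ)) / D = -2 := by
    field_simp
  rw [h3] at h
  linarith

/-- `rieszS` is the identity on `0..D`. -/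
lemma rieszS_eq {D j : ℕ} (hjD : j ≤ D) : rieszS D j = j := by
  rcases Nat.eq_zero_or_pos D with hD | hD
  · subst hD
    have : j = 0 := by omega
    subst this
    simp [rieszS]
  -- all consecutive differences equal 1
  have hdiff : ∀ m : ℕ, m < D → rieszS D (D - m) - rieszS D (D - m - 1) = 1 := by
    intro m
    induction m with
    | zero =>
      intro _
      simpa using rieszS_top_diff hD
    | succ m ih =>
      intro hm
      have ih' := ih (by omega)
      have h := rieszS_diff (D := D) (j := D - (m + 1)) (by omega)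
      rw [sum_alt_sin (by omega) (by omega)] at h
      have e1 : D - (m + 1) + 1 = D - m := by omega
      rw [e1] at h
      have e2 : D - m - 1 = D - (m + 1) := by omega
      rw [e2] at ih'
      have h5 : -(0 : ℝ) / D = 0 := by simp
      rw [h5] at h
      linarith
  -- now induct upward
  induction j with
  | zero => simp [rieszS]
  | succ j ih =>
    have ih' := ih (by omega)
    have h := hdiff (D - (j + 1)) (by omega)
    have e1 : D - (D - (j + 1)) = j + 1 := by omega
    rw [e1] at h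
    simp only [Nat.add_sub_cancel] at h
    rw [ih'] at h
    push_cast
    linarith

/-- reflection of the nodes -/
lemma tau_reflect {D k : ℕ} (hk : k < 2 * D) : tau D (2 * D - 1 - k) = 2 * π - tau D k := by
  have hD : 0 < D := by omega
  have hD' : (D : ℝ) ≠ 0 := by exact_mod_cast hD.ne'
  unfold tau
  have : ((2 * D - 1 - k : ℕ) : ℝ) = 2 * D - 1 - k := by
    rw [Nat.sub_sub, Nat.cast_sub (by omega)]
    push_cast
    ring
  rw [this]
  field_simp
  ring

lemma cK_reflect {D k : ℕ} (hk : k < 2 * D) : cK D (2 * D - 1 - k) = - cK D k := by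
  unfold cK
  rw [tau_reflect hk]
  have h1 : sin ((2 * π - tau D k) / 2) = sin (tau D k / 2) := by
    rw [show (2 * π - tau D k) / 2 = π - tau D k / 2 by ring, sin_pi_sub]
  rw [h1]
  have h2 : (-1 : ℝ) ^ (2 * D - 1 - k) = - (-1) ^ k := by
    have : (2 * D - 1 - k) + k + 1 = 2 * D := by omega
    have h3 : (-1 : ℝ) ^ (2 * D - 1 - k) * (-1) ^ k * (-1) = 1 := by
      rw [← pow_add, ← pow_succ, this, pow_mul]
      simp
    have h4 : (-1 : ℝ) ^ k * (-1) ^ k = 1 := by
      rw [← mul_pow]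
      simp
    have hxy : (-1 : ℝ) ^ (2 * D - 1 - k) * (-1) ^ k = -1 := by linarith
    calc (-1 : ℝ) ^ (2 * D - 1 - k) = (-1 : ℝ) ^ (2 * D - 1 - k) * ((-1) ^ k * (-1) ^ k) := by
          rw [h4, mul_one]
      _ = ((-1 : ℝ) ^ (2 * D - 1 - k) * (-1) ^ k) * (-1) ^ k := by ring
      _ = - (-1) ^ k := by rw [hxy]; ring
  rw [h2, neg_div]

/-- The cosine part of the Riesz functional vanishes. -/
lemma rieszC_eq (D j : ℕ) : ∑ k ∈ range (2 * D), cK D k * cos (j * tau D k) = 0 := by
  have h := Finset.sum_range_reflect (fun k => cK D k * cos (j * tau D k)) (2 * D)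
  have h2 : ∑ k ∈ range (2 * D), cK D (2 * D - 1 - k) * cos (j * tau D (2 * D - 1 - k)) =
      - ∑ k ∈ range (2 * D), cK D k * cos (j * tau D k) := by
    rw [← Finset.sum_neg_distrib]
    apply Finset.sum_congr rfl
    intro k hk
    have hk' := Finset.mem_range.mp hk
    rw [cK_reflect hk', tau_reflect hk']
    have : cos (j * (2 * π - tau D k)) = cos (j * tau D k) := by
      rw [show (j : ℝ) * (2 * π - tau D k) = j * (2 * π) - j * tau D k by ring,
        cos_nat_mul_two_pi_sub]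
    rw [this]
    ring
  rw [h2] at h
  linarith

/-- the off-centre weights of the second derivative formula -/
noncomputable def eRaw (D l : ℕ) : ℝ := (-1) ^ (l + 1) / (2 * sin ((l : ℝ) * π / (2 * D)) ^ 2)

/-- the central weight of the second derivative formula -/
noncomputable def eZero (D : ℕ) : ℝ := - ∑ l ∈ range (2 * D - 1), eRaw D (l + 1)

/-- all the weights of the second derivative formula, periodically extended to `2 * D` -/
noncomputable def eL (D l : ℕ) : ℝ := if l = 0 ∨ l = 2 * D then eZero D else eRaw D l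

lemma eL_zero (D : ℕ) : eL D 0 = eZero D := by simp [eL]
lemma eL_top (D : ℕ) : eL D (2 * D) = eZero D := by simp [eL]
lemma eL_of {D l : ℕ} (h1 : 0 < l) (h2 : l < 2 * D) : eL D l = eRaw D l := by
  unfold eL
  rw [if_neg]
  omega

lemma eRaw_mul {D l : ℕ} (h1 : 0 < l) (h2 : l < 2 * D) :
    eRaw D l * (4 * sin ((l : ℝ) * π / (2 * D)) ^ 2) = 2 * (-1) ^ (l + 1) := by
  have := sin_mul_ne_zero h1 h2
  unfold eRaw
  field_simp
  ring

/-- Splitting off the zeroth term of a sum over `range (2 * D)`. -/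
lemma sum_range_two_mul (D : ℕ) (hD : 0 < D) (g : ℕ → ℝ) :
    ∑ l ∈ range (2 * D), g l = g 0 + ∑ l ∈ range (2 * D - 1), g (l + 1) := by
  have : 2 * D = (2 * D - 1) + 1 := by omega
  conv_lhs => rw [this, Finset.sum_range_succ']
  ring

/-- cosine part of the second derivative formula -/
noncomputable def eCos (D j : ℕ) : ℝ := ∑ l ∈ range (2 * D), eL D l * cos (j * (l * (π / D)))

/-- sine part of the second derivative formula -/
noncomputable def eSin (D j : ℕ) : ℝ := ∑ l ∈ range (2 * D), eL D l * sin (j * (l * (π / D)))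

lemma eCos_zero {D : ℕ} (hD : 0 < D) : eCos D 0 = 0 := by
  unfold eCos
  rw [sum_range_two_mul D hD]
  simp only [Nat.cast_zero, zero_mul, cos_zero, mul_one, eL_zero]
  have : ∀ l ∈ range (2 * D - 1), eL D (l + 1) = eRaw D (l + 1) := by
    intro l hl
    have := Finset.mem_range.mp hl
    exact eL_of (by omega) (by omega)
  rw [Finset.sum_congr rfl this]
  simp [eZero]

lemma half_angle {D l : ℕ} (hD : 0 < D) : ((l : ℝ) * (π / D)) / 2 = (l : ℝ) * π / (2 * D) := by
  have : (D : ℝ) ≠ 0 := by exact_mod_cast hD.ne'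
  field_simp

/-- second difference of cosines -/
lemma cos_second_diff {j : ℕ} (hj : 0 < j) (θ : ℝ) :
    cos ((j + 1 : ℕ) * θ) + cos ((j - 1 : ℕ) * θ) - 2 * cos (j * θ) =
      -(4 * sin (θ / 2) ^ 2 * cos (j * θ)) := by
  have h1 : ((j + 1 : ℕ) : ℝ) * θ = j * θ + θ := by push_cast; ring
  have h2 : ((j - 1 : ℕ) : ℝ) * θ = j * θ - θ := by
    rw [Nat.cast_sub (by omega)]
    push_cast
    ring
  have h3 : cos θ = 1 - 2 * sin (θ / 2) ^ 2 := by
    have := cos_sq' (θ / 2)
    have h4 : cos θ = 2 * cos (θ / 2) ^ 2 - 1 := by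
      rw [← cos_two_mul]
      congr 1
      ring
    rw [h4, this]
    ring
  rw [h1, h2, cos_add, cos_sub, h3]
  ring

/-- alternating cosine sums vanish -/
lemma sum_alt_cos {D j : ℕ} (hj : j < D) :
    ∑ l ∈ range (2 * D), (-1) ^ l * cos (j * (l * (π / D))) = 0 := by
  have hD : 0 < D := by omega
  have hD' : (D : ℝ) ≠ 0 := by exact_mod_cast hD.ne'
  have h1 : ∀ l : ℕ, (-1 : ℝ) ^ l * cos (j * (l * (π / D))) =
      (cos (0 + l * (((D + j : ℕ) : ℝ) * (π / D))) + cos (0 + l * (((D - j : ℕ) : ℝ) * (π / D)))) / 2 := by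
    intro l
    have hp : (-1 : ℝ) ^ l = cos (l * π) := (cos_nat_mul_pi l).symm
    rw [hp]
    have e1 : (0 : ℝ) + l * (((D + j : ℕ) : ℝ) * (π / D)) = l * π + j * (l * (π / D)) := by
      push_cast
      field_simp
      ring
    have e2 : (0 : ℝ) + l * (((D - j : ℕ) : ℝ) * (π / D)) = l * π - j * (l * (π / D)) := by
      rw [Nat.cast_sub hj.le]
      field_simp
      ring
    rw [e1, e2, cos_add, cos_sub]
    ring
  simp_rw [h1]
  rw [← Finset.sum_div, Finset.sum_add_distrib]
  have hA : ∀ m : ℕ, 0 < m → m < 2 * D →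
      ∑ l ∈ range (2 * D), cos (0 + l * ((m : ℝ) * (π / D))) = 0 := by
    intro m hm hm2
    apply sum_cos_arith
    · have := sin_mul_ne_zero hm hm2
      convert this using 2
      field_simp
    · refine ⟨m, ?_⟩
      push_cast
      field_simp
  rw [hA (D + j) (by omega) (by omega), hA (D - j) (by omega) (by omega)]
  simp

/-- alternating sum of signs over an interval of odd length -/
lemma sum_alt_one (D : ℕ) (hD : 0 < D) : ∑ l ∈ range (2 * D - 1), (-1 : ℝ) ^ (l + 1) = -1 := by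
  induction D with
  | zero => omega
  | succ D ih =>
    rcases Nat.eq_zero_or_pos D with h | h
    · subst h
      simp
    · have e : 2 * (D + 1) - 1 = (2 * D - 1) + 2 := by omega
      rw [e, Finset.sum_range_succ, Finset.sum_range_succ, ih h]
      have h1 : (2 * D - 1 + 1) = 2 * D := by omega
      have h2 : (2 * D - 1 + 1 + 1) = 2 * D + 1 := by omega
      rw [h1, pow_succ (-1 : ℝ) (2 * D), pow_mul]
      simp

/-- the second difference of `eCos` -/
lemma eCos_diff {D j : ℕ} (hj : 0 < j) (hjD : j < D) :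
    eCos D (j + 1) + eCos D (j - 1) - 2 * eCos D j = -2 := by
  have hD : 0 < D := by omega
  unfold eCos
  rw [Finset.mul_sum, ← Finset.sum_add_distrib, ← Finset.sum_sub_distrib, sum_range_two_mul D hD]
  simp only [Nat.cast_zero, zero_mul, mul_zero, cos_zero, mul_one]
  have h1 : ∀ l ∈ range (2 * D - 1),
      eL D (l + 1) * cos ((j + 1 : ℕ) * (((l + 1 : ℕ) : ℝ) * (π / D))) +
        eL D (l + 1) * cos ((j - 1 : ℕ) * (((l + 1 : ℕ) : ℝ) * (π / D))) -
        2 * (eL D (l + 1) * cos (j * (((l + 1 : ℕ) : ℝ) * (π / D)))) =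
      -2 * ((-1) ^ (l + 1 + 1) * cos (j * (((l + 1 : ℕ) : ℝ) * (π / D)))) := by
    intro l hl
    have hl' := Finset.mem_range.mp hl
    have hl1 : 0 < l + 1 := by omega
    have hl2 : l + 1 < 2 * D := by omega
    rw [eL_of hl1 hl2]
    have h2 := cos_second_diff hj (((l + 1 : ℕ) : ℝ) * (π / D))
    rw [half_angle hD] at h2
    have h3 := eRaw_mul hl1 hl2
    calc eRaw D (l + 1) * cos ((j + 1 : ℕ) * (((l + 1 : ℕ) : ℝ) * (π / D))) +
        eRaw D (l + 1) * cos ((j - 1 : ℕ) * (((l + 1 : ℕ) : ℝ) * (π / D))) -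
        2 * (eRaw D (l + 1) * cos (j * (((l + 1 : ℕ) : ℝ) * (π / D))))
        = eRaw D (l + 1) * (cos ((j + 1 : ℕ) * (((l + 1 : ℕ) : ℝ) * (π / D))) +
          cos ((j - 1 : ℕ) * (((l + 1 : ℕ) : ℝ) * (π / D))) -
          2 * cos (j * (((l + 1 : ℕ) : ℝ) * (π / D)))) := by ring
      _ = -((eRaw D (l + 1) * (4 * sin (((l + 1 : ℕ) : ℝ) * π / (2 * D)) ^ 2)) *
          cos (j * (((l + 1 : ℕ) : ℝ) * (π / D)))) := by
          rw [h2]
          ring
      _ = _ := by
          rw [h3]
          ring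
  rw [Finset.sum_congr rfl h1]
  have h4 := sum_alt_cos hjD
  rw [sum_range_two_mul D hD] at h4
  simp only [Nat.cast_zero, zero_mul, mul_zero, cos_zero, pow_zero, mul_one] at h4
  have h5 : ∑ l ∈ range (2 * D - 1), (-2 : ℝ) * ((-1) ^ (l + 1 + 1) * cos (j * (((l + 1 : ℕ) : ℝ) * (π / D)))) =
      2 * ∑ l ∈ range (2 * D - 1), (-1) ^ (l + 1) * cos (j * (((l + 1 : ℕ) : ℝ) * (π / D))) := by
    rw [Finset.mul_sum]
    apply Finset.sum_congr rfl
    intro l _
    rw [pow_succ (-1 : ℝ) (l + 1)]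
    ring
  rw [h5]
  linarith

/-- the top difference of `eCos` -/
lemma eCos_one {D : ℕ} (hD : 0 < D) : eCos D 1 - eCos D 0 = -1 := by
  unfold eCos
  rw [← Finset.sum_sub_distrib, sum_range_two_mul D hD]
  simp only [Nat.cast_zero, zero_mul, mul_zero, cos_zero, mul_one, sub_self, zero_add,
    Nat.cast_one, one_mul]
  have h1 : ∀ l ∈ range (2 * D - 1),
      eL D (l + 1) * cos (((l + 1 : ℕ) : ℝ) * (π / D)) - eL D (l + 1) = (-1) ^ (l + 1) := by
    intro l hl
    have hl' := Finset.mem_range.mp hl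
    have hl1 : 0 < l + 1 := by omega
    have hl2 : l + 1 < 2 * D := by omega
    rw [eL_of hl1 hl2]
    have h3 := eRaw_mul hl1 hl2
    have h4 : cos (((l + 1 : ℕ) : ℝ) * (π / D)) =
        1 - 2 * sin (((l + 1 : ℕ) : ℝ) * π / (2 * D)) ^ 2 := by
      rw [← half_angle hD]
      have := cos_sq' ((((l + 1 : ℕ) : ℝ) * (π / D)) / 2)
      have h5 : cos (((l + 1 : ℕ) : ℝ) * (π / D)) =
          2 * cos ((((l + 1 : ℕ) : ℝ) * (π / D)) / 2) ^ 2 - 1 := by
        rw [← cos_two_mul]
        congr 1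
        ring
      rw [h5, this]
      ring
    rw [h4]
    have h6 : eRaw D (l + 1) * (1 - 2 * sin (((l + 1 : ℕ) : ℝ) * π / (2 * D)) ^ 2) - eRaw D (l + 1)
        = -(eRaw D (l + 1) * (4 * sin (((l + 1 : ℕ) : ℝ) * π / (2 * D)) ^ 2)) / 2 := by ring
    rw [h6, h3, pow_succ (-1 : ℝ) (l + 1)]
    ring
  rw [Finset.sum_congr rfl h1]
  exact sum_alt_one D hD

lemma eCos_eq {D j : ℕ} (hD : 0 < D) (hj : j ≤ D) : eCos D j = -(j : ℝ) ^ 2 := by
  induction j using Nat.strong_induction_on with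
  | _ j ih =>
    match j, hj, ih with
    | 0, _, _ =>
      simpa using eCos_zero hD
    | 1, _, ih =>
      have := eCos_one hD
      have h0 := ih 0 (by omega) (by omega)
      simp only [Nat.cast_zero, ne_eq, OfNat.ofNat_ne_zero, not_false_eq_true, zero_pow, neg_zero] at h0
      simp only [Nat.cast_one, one_pow]
      linarith
    | (j + 2), hj, ih =>
      have h1 := ih (j + 1) (by omega) (by omega)
      have h0 := ih j (by omega) (by omega)
      have h2 := eCos_diff (D := D) (j := j + 1) (by omega) (by omega)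
      simp only [Nat.add_sub_cancel] at h2
      rw [h1, h0] at h2
      push_cast at h2 ⊢
      linarith

lemma eSin_eq {D : ℕ} (hD : 0 < D) (j : ℕ) : eSin D j = 0 := by
  unfold eSin
  rw [sum_range_two_mul D hD]
  simp only [Nat.cast_zero, zero_mul, mul_zero, sin_zero, zero_add]
  have hD' : (D : ℝ) ≠ 0 := by exact_mod_cast hD.ne'
  have h := Finset.sum_range_reflect
    (fun l => eL D (l + 1) * sin (j * (((l + 1 : ℕ) : ℝ) * (π / D)))) (2 * D - 1)
  have h2 : ∑ l ∈ range (2 * D - 1),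
      eL D (2 * D - 1 - 1 - l + 1) * sin (j * (((2 * D - 1 - 1 - l + 1 : ℕ) : ℝ) * (π / D))) =
      - ∑ l ∈ range (2 * D - 1), eL D (l + 1) * sin (j * (((l + 1 : ℕ) : ℝ) * (π / D))) := by
    rw [← Finset.sum_neg_distrib]
    apply Finset.sum_congr rfl
    intro l hl
    have hl' := Finset.mem_range.mp hl
    have hl1 : 0 < l + 1 := by omega
    have hl2 : l + 1 < 2 * D := by omega
    have e : 2 * D - 1 - 1 - l + 1 = 2 * D - (l + 1) := by omega
    rw [e, eL_of hl1 hl2, eL_of (by omega) (by omega)]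
    have hc : ((2 * D - (l + 1) : ℕ) : ℝ) = 2 * D - ((l + 1 : ℕ) : ℝ) := by
      rw [Nat.cast_sub (by omega)]
      push_cast
      ring
    have h3 : eRaw D (2 * D - (l + 1)) = eRaw D (l + 1) := by
      unfold eRaw
      rw [hc]
      have h4 : (2 * (D : ℝ) - ((l + 1 : ℕ) : ℝ)) * π / (2 * D) =
          π - ((l + 1 : ℕ) : ℝ) * π / (2 * D) := by
        field_simp
      rw [h4, sin_pi_sub]
      have h5 : (-1 : ℝ) ^ (2 * D - (l + 1) + 1) = (-1) ^ (l + 1 + 1) := by
        have h6 : (2 * D - (l + 1) + 1) + (l + 1 + 1) = 2 * D + 2 := by omega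
        have h7 : (-1 : ℝ) ^ (2 * D - (l + 1) + 1) * (-1) ^ (l + 1 + 1) = 1 := by
          rw [← pow_add, h6, pow_add, pow_mul]
          simp
        have h8 : (-1 : ℝ) ^ (l + 1 + 1) * (-1) ^ (l + 1 + 1) = 1 := by
          rw [← mul_pow]
          simp
        calc (-1 : ℝ) ^ (2 * D - (l + 1) + 1)
            = (-1 : ℝ) ^ (2 * D - (l + 1) + 1) * ((-1) ^ (l + 1 + 1) * (-1) ^ (l + 1 + 1)) := by
              rw [h8, mul_one]
          _ = ((-1 : ℝ) ^ (2 * D - (l + 1) + 1) * (-1) ^ (l + 1 + 1)) * (-1) ^ (l + 1 + 1) := by ring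
          _ = _ := by rw [h7, one_mul]
      rw [h5]
    rw [h3, hc]
    have h9 : sin (j * ((2 * (D : ℝ) - ((l + 1 : ℕ) : ℝ)) * (π / D))) =
        - sin (j * (((l + 1 : ℕ) : ℝ) * (π / D))) := by
      have h10 : (j : ℝ) * ((2 * (D : ℝ) - ((l + 1 : ℕ) : ℝ)) * (π / D)) =
          j * (2 * π) - j * (((l + 1 : ℕ) : ℝ) * (π / D)) := by
        field_simp
      rw [h10, sin_nat_mul_two_pi_sub]
    rw [h9]
    ring
  rw [h2] at h
  linarith

end Vale.Agent.Lib.P047h
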